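import Vale.Agent.P013.Jac.Count

/-! The fundamental lemma, by truncated inclusion-exclusion on blocks `(√z, z]`. -/

namespace Vale.Agent.P013.Top

open Real Finset Jac

/-- Truncated inclusion-exclusion over a block, from approximate counts. -/
theorem brun_gen (X : Finset ℤ) (P₀ D : Finset ℕ) {X₀ ε R₀ : ℝ} (hX₀ : 0 ≤ X₀) (hε : 0 ≤ ε)
    (hR₀ : 0 ≤ R₀) (hP : ∀ p ∈ P₀, p.Prime)
    (hX : ∀ F ⊆ P₀, |cnt X (D ∪ F) ∅ - X₀ / (dprod D * dprod F)|
      ≤ ε * X₀ / (dprod D * dprod F) + R₀) {R : ℕ} (hR : 1 ≤ R) :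
    |cnt (X.filter fun x => ∀ p ∈ P₀, ¬(p : ℤ) ∣ x) D ∅ - X₀ * V P₀ / dprod D|
      ≤ (2 * ((∏ p ∈ P₀, (1 + 4 / (p : ℝ))) / 4 ^ R) + 2 * ε * W P₀) * X₀ / dprod D
        + 2 * (2 ^ R * ((P₀.card : ℝ) + 1) ^ R) * R₀ := by
  classical
  let ind : Finset ℕ → ℤ → ℝ := fun F x => if ∀ q ∈ D ∪ F, (q : ℤ) ∣ x then 1 else 0
  let θ : Finset ℕ → ℝ := fun F => cnt X (D ∪ F) ∅ - X₀ / (dprod D * dprod F)
  have hind0 : ∀ F, ∑ x ∈ X, ind F x = X₀ / (dprod D * dprod F) + θ F := by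
    intro F
    simp [ind, θ, cnt, sum_boole]
  set F1 := P₀.powerset.filter fun F => F.card < R with hF1
  set F2 := P₀.powerset.filter fun F => F.card = R with hF2
  -- pointwise
  have hpt : ∀ x, |(if (∀ q ∈ D, (q : ℤ) ∣ x) ∧ ∀ p ∈ P₀, ¬(p : ℤ) ∣ x then (1 : ℝ) else 0)
      - ∑ F ∈ F1, (-1) ^ F.card * ind F x| ≤ ∑ F ∈ F2, ind F x := by
    intro x
    by_cases hx : ∀ q ∈ D, (q : ℤ) ∣ x
    · set A := P₀.filter fun p : ℕ => (p : ℤ) ∣ x with hA
      have hind : ∀ F ∈ P₀.powerset, ind F x = if F ⊆ A then 1 else 0 := by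
        intro F hF
        simp only [ind]
        refine if_congr ?_ rfl rfl
        constructor
        · exact fun h p hp => mem_filter.2 ⟨mem_powerset.1 hF hp, h p (mem_union_right _ hp)⟩
        · exact fun h q hq => (mem_union.1 hq).elim (hx q) fun h' => (mem_filter.1 (h h')).2
      have hset : ∀ j, (P₀.powerset.filter fun F => F.card = j ∧ F ⊆ A) = A.powersetCard j := by
        intro j; ext F
        simp only [mem_filter, mem_powerset, mem_powersetCard]
        exact ⟨fun h => ⟨h.2.2, h.2.1⟩, fun h => ⟨h.1.trans (filter_subset _ _), h.2, h.1⟩⟩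
      have hs2 : ∑ F ∈ F2, ind F x = (A.card.choose R : ℝ) := by
        rw [hF2, sum_congr rfl fun F hF => hind F (mem_filter.1 hF).1, sum_boole, filter_filter,
          hset, card_powersetCard]
      have hs1 : ∑ F ∈ F1, (-1) ^ F.card * ind F x
          = ((∑ j ∈ range R, (-1) ^ j * (A.card.choose j : ℤ) : ℤ) : ℝ) := by
        push_cast
        rw [hF1, ← sum_fiberwise_of_maps_to (g := Finset.card) (t := range R)
          fun F hF => mem_range.2 (mem_filter.1 hF).2]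
        refine sum_congr rfl fun j hj => ?_
        rw [filter_filter, sum_congr rfl (g := fun F => (-1 : ℝ) ^ j * if F ⊆ A then 1 else 0)
          fun F hF => by
            obtain ⟨hF', -, hc⟩ := mem_filter.1 hF
            rw [hind F hF', hc], ← mul_sum, sum_boole, filter_filter]
        congr 2
        rw [← card_powersetCard j A, ← hset]
        congr 1; ext F
        simp only [mem_filter]
        exact ⟨fun h => ⟨h.1, h.2.1.2, h.2.2⟩,
          fun h => ⟨h.1, ⟨h.2.1 ▸ mem_range.1 hj, h.2.1⟩, h.2.2⟩⟩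
      rw [hs1, hs2]
      obtain ⟨r, rfl⟩ : ∃ r, R = r + 1 := ⟨R - 1, by omega⟩
      by_cases hA0 : A.card = 0
      · have hall : ∀ p ∈ P₀, ¬(p : ℤ) ∣ x := fun p hp hpx =>
          filter_eq_empty_iff.1 (card_eq_zero.1 hA0) hp hpx
        simp [if_pos (And.intro hx hall), hA0, sum_range_succ']
      · have hnot : ¬ ∀ p ∈ P₀, ¬(p : ℤ) ∣ x := fun h =>
          hA0 (card_eq_zero.2 (filter_eq_empty_iff.2 fun p hp => h p hp))
        obtain ⟨t, ht⟩ : ∃ t, A.card = t + 1 := ⟨A.card - 1, by omega⟩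
        have key : ∀ r : ℕ, ∑ j ∈ range (r + 1), (-1) ^ j * ((t + 1).choose j : ℤ)
            = (-1) ^ r * (t.choose r : ℤ) := by
          intro r
          induction r with
          | zero => simp
          | succ r ih => rw [sum_range_succ, ih, Nat.choose_succ_succ' t r]; push_cast; ring
        rw [if_neg (fun h => hnot h.2), zero_sub, abs_neg, ht, key]
        push_cast
        rw [abs_mul, abs_pow, abs_neg, abs_one, one_pow, one_mul, Nat.abs_cast]
        rcases le_or_gt r t with h | h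
        · have := Nat.add_one_mul_choose_eq t r
          have h2 : t.choose r * (r + 1) ≤ (t + 1).choose (r + 1) * (r + 1) := by nlinarith
          exact_mod_cast Nat.le_of_mul_le_mul_right h2 (by omega)
        · simp [Nat.choose_eq_zero_of_lt h]
    · have h0 : ∀ F, ind F x = 0 := fun F => if_neg fun h => hx fun q hq => h q (mem_union_left _ hq)
      rw [if_neg (fun h => hx h.1)]
      simp [h0]
  -- sum over the interval
  have hcnt : cnt (X.filter fun x => ∀ p ∈ P₀, ¬(p : ℤ) ∣ x) D ∅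
      = ∑ x ∈ X, if (∀ q ∈ D, (q : ℤ) ∣ x) ∧ ∀ p ∈ P₀, ¬(p : ℤ) ∣ x then (1 : ℝ) else 0 := by
    rw [sum_boole, cnt, filter_filter]
    congr 2
    exact filter_congr fun x _ => ⟨fun h => ⟨h.2.1, h.1⟩, fun h => ⟨h.2, h.1, by simp⟩⟩
  have habs := (abs_sum_le_sum_abs _ _).trans (sum_le_sum fun x (_ : x ∈ X) => hpt x)
  rw [sum_sub_distrib, ← hcnt, sum_comm (s := X) (t := F1), sum_comm (s := X) (t := F2)] at habs
  have hd : (0 : ℝ) ≤ dprod D := prod_nonneg fun p _ => p.cast_nonneg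
  have hY0 : 0 ≤ X₀ / dprod D := div_nonneg hX₀ hd
  have hθ : ∀ F ⊆ P₀, |θ F| ≤ ε * (X₀ / dprod D) * ∏ p ∈ F, 1 / (p : ℝ) + R₀ := by
    intro F hF
    refine (hX F hF).trans (le_of_eq ?_)
    rw [prod_div_distrib, prod_const_one, ← show dprod F = ∏ p ∈ F, (p : ℝ) from rfl]
    ring
  have hWsum : ∀ G : Finset (Finset ℕ), G ⊆ P₀.powerset →
      ∑ F ∈ G, |θ F| ≤ ε * (X₀ / dprod D) * W P₀ + G.card * R₀ := by
    intro G hG
    refine (sum_le_sum fun F hF => hθ F (mem_powerset.1 (hG hF))).trans ?_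
    rw [sum_add_distrib, sum_const, nsmul_eq_mul, ← mul_sum, W, prod_one_add]
    refine add_le_add (mul_le_mul_of_nonneg_left ?_ (by positivity)) le_rfl
    exact sum_le_sum_of_subset_of_nonneg hG fun F _ _ => by positivity
  have hm1 : ∑ F ∈ F1, ∑ x ∈ X, (-1) ^ F.card * ind F x
      = X₀ / dprod D * ∑ F ∈ F1, (∏ p ∈ F, -(1 / (p : ℝ))) + ∑ F ∈ F1, (-1) ^ F.card * θ F := by
    rw [mul_sum, ← sum_add_distrib]
    refine sum_congr rfl fun F hF => ?_
    rw [← mul_sum, hind0 F, prod_neg, prod_div_distrib,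
      prod_const_one, ← show dprod F = ∏ p ∈ F, (p : ℝ) from rfl]
    ring
  have hm2 : ∑ F ∈ F2, ∑ x ∈ X, ind F x
      ≤ X₀ / dprod D * ((∏ p ∈ P₀, (1 + 4 / (p : ℝ))) / 4 ^ R)
        + (ε * (X₀ / dprod D) * W P₀ + F2.card * R₀) := by
    simp only [hind0, sum_add_distrib]
    refine add_le_add ?_ ((sum_le_sum fun F _ => le_abs_self _).trans (hWsum F2 (filter_subset _ _)))
    calc _ ≤ ∑ F ∈ F2, X₀ / dprod D * ((∏ p ∈ F, 4 / (p : ℝ)) / 4 ^ R) := by
          refine sum_le_sum fun F hF => le_of_eq ?_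
          obtain ⟨hF', hc⟩ := mem_filter.1 hF
          rw [prod_div_distrib, prod_const, hc, dprod, dprod]
          field_simp
      _ ≤ _ := by
          rw [← mul_sum, ← sum_div, prod_one_add]
          refine mul_le_mul_of_nonneg_left (div_le_div_of_nonneg_right ?_ (by positivity)) hY0
          exact sum_le_sum_of_subset_of_nonneg (filter_subset _ _) fun F _ _ => by positivity
  have hV : |∑ F ∈ F1, (∏ p ∈ F, -(1 / (p : ℝ))) - V P₀|
      ≤ (∏ p ∈ P₀, (1 + 4 / (p : ℝ))) / 4 ^ R := by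
    have hVexp : V P₀ = ∑ F ∈ P₀.powerset, ∏ p ∈ F, -(1 / (p : ℝ)) := by
      rw [← prod_one_add]; exact prod_congr rfl fun p _ => by ring
    rw [hVexp, ← sum_filter_add_sum_filter_not P₀.powerset (fun F => F.card < R), sub_add_cancel_left,
      abs_neg, prod_one_add, sum_div]
    refine (abs_sum_le_sum_abs _ _).trans
      (le_trans (sum_le_sum fun F hF => ?_) (sum_le_sum_of_subset_of_nonneg (filter_subset _ _)
        fun F _ _ => by positivity))
    have hc : R ≤ F.card := not_lt.1 (mem_filter.1 hF).2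
    rw [le_div_iff₀ (by positivity), abs_prod, prod_div_distrib]
    simp only [abs_neg, abs_div, abs_one, Nat.abs_cast, prod_div_distrib, prod_const_one, prod_const]
    rw [div_mul_eq_mul_div, one_mul]
    exact div_le_div_of_nonneg_right (pow_le_pow_right₀ (by norm_num) hc)
      (prod_nonneg fun p _ => p.cast_nonneg)
  have hcard : ∀ G : Finset (Finset ℕ), G ⊆ P₀.powerset → (∀ F ∈ G, F.card ≤ R) →
      (G.card : ℝ) ≤ 2 ^ R * ((P₀.card : ℝ) + 1) ^ R := by
    intro G hG hc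
    have h1 : G ⊆ (range (R + 1)).biUnion fun j => P₀.powersetCard j := fun F hF =>
      mem_biUnion.2 ⟨F.card, mem_range.2 (Nat.lt_succ_of_le (hc F hF)),
        mem_powersetCard.2 ⟨mem_powerset.1 (hG hF), rfl⟩⟩
    have h2 : G.card ≤ (R + 1) * (P₀.card + 1) ^ R := by
      refine (card_le_card h1).trans (card_biUnion_le.trans ?_)
      refine (sum_le_card_nsmul _ _ ((P₀.card + 1) ^ R) fun j hj => ?_).trans (by simp)
      rw [card_powersetCard]
      exact (Nat.choose_le_pow _ _).trans ((Nat.pow_le_pow_left (Nat.le_succ _) _).trans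
        (Nat.pow_le_pow_right (by omega) (Nat.le_of_lt_succ (mem_range.1 hj))))
    calc (G.card : ℝ) ≤ ((R + 1) * (P₀.card + 1) ^ R : ℕ) := by exact_mod_cast h2
      _ ≤ _ := by
        push_cast
        gcongr
        exact_mod_cast Nat.lt_two_pow_self
  have hc1 := hcard F1 (filter_subset _ _) fun F hF => (mem_filter.1 hF).2.le
  have hc2 := hcard F2 (filter_subset _ _) fun F hF => (mem_filter.1 hF).2.le
  have hθ1 : |∑ F ∈ F1, (-1 : ℝ) ^ F.card * θ F|
      ≤ ε * (X₀ / dprod D) * W P₀ + F1.card * R₀ := by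
    refine (abs_sum_le_sum_abs _ _).trans (le_trans (le_of_eq ?_) (hWsum F1 (filter_subset _ _)))
    exact sum_congr rfl fun F _ => by simp [abs_mul]
  have hVm := mul_le_mul_of_nonneg_left hV hY0
  rw [← abs_of_nonneg hY0, ← abs_mul, abs_of_nonneg hY0] at hVm
  rw [hm1] at habs
  have hr1 := mul_le_mul_of_nonneg_right hc1 hR₀
  have hr2 := mul_le_mul_of_nonneg_right hc2 hR₀
  rw [abs_le] at habs hθ1 hVm ⊢
  have e1 : X₀ * V P₀ / dprod D = X₀ / dprod D * V P₀ := by ring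
  have e2 : (2 * ((∏ p ∈ P₀, (1 + 4 / (p : ℝ))) / 4 ^ R) + 2 * ε * W P₀) * X₀ / dprod D
      = 2 * (X₀ / dprod D * ((∏ p ∈ P₀, (1 + 4 / (p : ℝ))) / 4 ^ R))
        + 2 * (ε * (X₀ / dprod D) * W P₀) := by ring
  rw [e1, e2]
  constructor <;> linarith [habs.1, habs.2, hθ1.1, hθ1.2, hVm.1, hVm.2]

/-- The size of a product over the primes in `(√z, z]`. -/
theorem block_bounds : ∃ A : ℝ, 1 ≤ A ∧ ∀ (z : ℝ) (B : Finset ℕ),
    (∀ p ∈ B, p.Prime ∧ Real.sqrt z < p ∧ (p : ℝ) ≤ z) →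
      1 / A ≤ V B ∧ W B ≤ A ∧ ∏ p ∈ B, (1 + 4 / (p : ℝ)) ≤ A := by
  obtain ⟨K, hK, hrange⟩ := prime_range
  have hl2 : 0 < log 2 := log_pos (by norm_num)
  set σ : ℝ := 2 + K / log 2 with hσ
  have hσ0 : 0 ≤ σ := by positivity
  refine ⟨exp (4 * σ), one_le_exp (by linarith), fun z B hB => ?_⟩
  have hs : ∑ p ∈ B, 1 / (p : ℝ) ≤ σ := by
    rcases lt_or_ge (Real.sqrt z) 2 with h | h
    · have hsub : B ⊆ Icc 2 3 := fun p hp => by
        obtain ⟨hpp, -, hpz⟩ := hB p hp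
        have hz0 : 0 ≤ z := le_trans p.cast_nonneg hpz
        have : (p : ℝ) < 4 := by
          calc (p : ℝ) ≤ z := hpz
            _ = Real.sqrt z * Real.sqrt z := (mul_self_sqrt hz0).symm
            _ < 2 * 2 := mul_self_lt_mul_self (sqrt_nonneg z) h
            _ = 4 := by norm_num
        exact mem_Icc.2 ⟨hpp.two_le, by exact_mod_cast Nat.le_of_lt_succ (by exact_mod_cast this)⟩
      refine (sum_le_sum_of_subset_of_nonneg hsub fun p _ _ => by positivity).trans ?_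
      rw [show Icc 2 3 = ({2, 3} : Finset ℕ) from rfl, sum_pair (by norm_num)]
      have : 0 ≤ K / log 2 := by positivity
      rw [hσ]; norm_num; linarith
    · have hz0 : 0 ≤ z := by
        by_contra hz
        rw [sqrt_eq_zero'.2 (not_le.1 hz).le] at h
        linarith
      have h1 := hrange (Real.sqrt z) 2 1 B h (by norm_num) fun p hp => by
        obtain ⟨hpp, hp1, hp2⟩ := hB p hp
        refine ⟨hpp, hp1, ?_⟩
        rw [pow_one, show (2 : ℝ) = ((2 : ℕ) : ℝ) by norm_num, rpow_natCast, sq_sqrt hz0]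
        exact hp2
      have h2 : K / log (Real.sqrt z) ≤ K / log 2 :=
        div_le_div_of_nonneg_left hK hl2 (log_le_log (by norm_num) h)
      rw [hσ]; norm_num at h1 h2 ⊢; linarith
  have key : ∀ c : ℝ, 0 ≤ c → ∏ p ∈ B, (1 + c / (p : ℝ)) ≤ exp (c * σ) := by
    intro c hc
    calc ∏ p ∈ B, (1 + c / (p : ℝ)) ≤ ∏ p ∈ B, exp (c / (p : ℝ)) :=
          prod_le_prod (fun p _ => by positivity) fun p _ => by
            linarith [add_one_le_exp (c / (p : ℝ))]
      _ = exp (c * ∑ p ∈ B, 1 / (p : ℝ)) := by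
          rw [← exp_sum, mul_sum]; simp [div_eq_mul_inv]
      _ ≤ _ := exp_le_exp.2 (mul_le_mul_of_nonneg_left hs hc)
  refine ⟨?_, (key 1 zero_le_one).trans (exp_le_exp.2 (by linarith)), key 4 (by norm_num)⟩
  calc 1 / exp (4 * σ) ≤ exp (-(2 * σ)) := by
        rw [one_div, ← exp_neg]; exact exp_le_exp.2 (by linarith)
    _ ≤ exp (∑ p ∈ B, -(2 * (1 / (p : ℝ)))) := by
        rw [sum_neg_distrib, ← mul_sum]; exact exp_le_exp.2 (by linarith)
    _ = ∏ p ∈ B, exp (-(2 * (1 / (p : ℝ)))) := exp_sum _ _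
    _ ≤ V B := by
        refine prod_le_prod (fun p _ => (exp_pos _).le) fun p hp => ?_
        have hp2 : (2 : ℝ) ≤ p := by exact_mod_cast (hB p hp).1.two_le
        have h := one_div_le_one_div_of_le two_pos hp2
        have h' := add_one_le_exp (2 * (1 / (p : ℝ)))
        rw [exp_neg, inv_le_iff_one_le_mul₀ (exp_pos _)]
        have h3 := mul_le_mul_of_nonneg_left h' (show 0 ≤ 1 - 1 / (p : ℝ) by linarith)
        nlinarith [show 0 ≤ 1 / (p : ℝ) by positivity]

/-- The integers of `[a, a + L)` free of the primes of `P` up to `z`. -/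
noncomputable def free (a : ℤ) (L : ℕ) (P : Finset ℕ) (z : ℝ) : Finset ℤ :=
  (Ico a (a + L)).filter fun x => ∀ p ∈ P.filter (fun p : ℕ => (p : ℝ) ≤ z), ¬(p : ℤ) ∣ x

theorem card_add_one_le {z w : ℝ} {B : Finset ℕ} (hz2 : 2 ≤ z)
    (hBp : ∀ p ∈ B, p.Prime ∧ w < (p : ℝ) ∧ (p : ℝ) ≤ z) : (B.card : ℝ) + 1 ≤ z := by
  have hsub : B ⊆ Icc 2 ⌊z⌋₊ := fun p hp => mem_Icc.2
    ⟨(hBp p hp).1.two_le, Nat.le_floor (hBp p hp).2.2⟩
  have h1 := card_le_card hsub
  rw [Nat.card_Icc] at h1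
  have h2 : 2 ≤ ⌊z⌋₊ := Nat.le_floor (by exact_mod_cast hz2)
  have h3 : ((B.card + 1 : ℕ) : ℝ) ≤ ⌊z⌋₊ := by exact_mod_cast (by omega : B.card + 1 ≤ ⌊z⌋₊)
  push_cast at h3
  exact h3.trans (Nat.floor_le (by linarith))

theorem count_le {z x : ℝ} (hz : 2 ≤ z) (hx0 : 0 ≤ x) (hx : x ≤ z) (R c : ℕ) :
    2 * (2 ^ R * x ^ R) * z ^ (2 * R + 4 * c + 1) ≤ z ^ (4 * R + 4 * c + 2) := by
  have h0 : 0 ≤ z := by linarith
  have h1 : 2 * (2 ^ R * x ^ R) ≤ z * (z ^ R * z ^ R) :=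
    mul_le_mul hz (mul_le_mul (pow_le_pow_left₀ (by norm_num) hz R) (pow_le_pow_left₀ hx0 hx R)
      (by positivity) (by positivity)) (by positivity) h0
  refine (mul_le_mul_of_nonneg_right h1 (by positivity)).trans (le_of_eq ?_)
  ring

/-- The fundamental lemma. -/
theorem fundamental : ∃ (G : ℝ) (c : ℕ), 0 ≤ G ∧ ∀ (P : Finset ℕ), (∀ p ∈ P, p.Prime) →
    ∀ (a : ℤ) (L : ℕ) (z : ℝ), 1 ≤ z → ∀ R : ℕ, 1 ≤ R →
    ∀ D : Finset ℕ, (∀ q ∈ D, q.Prime ∧ z < q) →
      |cnt (free a L P z) D ∅ - L * V (P.filter fun p : ℕ => (p : ℝ) ≤ z) / dprod D|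
        ≤ G / 4 ^ R * (L * V (P.filter fun p : ℕ => (p : ℝ) ≤ z)) / dprod D
          + z ^ (4 * R + 4 * c + 2) := by
  obtain ⟨A, hA1, hA⟩ := block_bounds
  obtain ⟨c, hc⟩ := pow_unbounded_of_one_lt (4 * A ^ 2) (show (1 : ℝ) < 4 by norm_num)
  have hA0 : 0 < A := by linarith
  refine ⟨4 * A ^ 2, c, by positivity, fun P hP a L => ?_⟩
  set G : ℝ := 4 * A ^ 2
  have base : ∀ z : ℝ, z < 2 → 1 ≤ z → ∀ R : ℕ, 1 ≤ R → ∀ D : Finset ℕ,
      (∀ q ∈ D, q.Prime ∧ z < q) →
      |cnt (free a L P z) D ∅ - L * V (P.filter fun p : ℕ => (p : ℝ) ≤ z) / dprod D|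
        ≤ G / 4 ^ R * (L * V (P.filter fun p : ℕ => (p : ℝ) ≤ z)) / dprod D
          + z ^ (4 * R + 4 * c + 2) := by
    intro z hz hz1 R _ D hD
    have he : P.filter (fun p : ℕ => (p : ℝ) ≤ z) = ∅ := filter_eq_empty_iff.2 fun p hp h => by
      have : (2 : ℝ) ≤ p := by exact_mod_cast (hP p hp).two_le
      linarith
    have hfree : free a L P z = Ico a (a + (L : ℤ)) := by simp [free, he]
    rw [hfree, he, show V ∅ = 1 from prod_empty, mul_one]
    have hiff : ∀ x : ℤ, (∀ q ∈ D, (q : ℤ) ∣ x) ↔ ((∏ q ∈ D, q : ℕ) : ℤ) ∣ x := fun x =>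
      ⟨fun h => Int.natCast_dvd.2 (prod_primes_dvd _ (fun q hq => Nat.prime_iff.1 (hD q hq).1)
          fun q hq => Int.natCast_dvd.1 (h q hq)),
        fun h q hq => dvd_trans (Int.natCast_dvd_natCast.2 (dvd_prod_of_mem _ hq)) h⟩
    have hcnt : cnt (Ico a (a + (L : ℤ))) D ∅ = mult a L (∏ q ∈ D, q) := by
      unfold cnt mult
      congr 2
      exact filter_congr fun x _ => by simp [hiff x]
    have hb := mult_bounds a L (prod_pos fun q hq => (hD q hq).1.pos)
    rw [show ((∏ q ∈ D, q : ℕ) : ℝ) = dprod D by rw [Nat.cast_prod]; rfl] at hb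
    have h1 : (1 : ℝ) ≤ z ^ (4 * R + 4 * c + 2) := one_le_pow₀ hz1
    have hd : 0 ≤ dprod D := prod_nonneg fun p _ => p.cast_nonneg
    have h2 : 0 ≤ G / 4 ^ R * L / dprod D := by positivity
    rw [hcnt, abs_le]
    constructor <;> linarith [hb.1, hb.2]
  suffices ∀ n : ℕ, ∀ z : ℝ, 1 ≤ z → z < 2 ^ (2 ^ n) → ∀ R : ℕ, 1 ≤ R → ∀ D : Finset ℕ,
      (∀ q ∈ D, q.Prime ∧ z < q) →
      |cnt (free a L P z) D ∅ - L * V (P.filter fun p : ℕ => (p : ℝ) ≤ z) / dprod D|
        ≤ G / 4 ^ R * (L * V (P.filter fun p : ℕ => (p : ℝ) ≤ z)) / dprod D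
          + z ^ (4 * R + 4 * c + 2) by
    intro z hz
    obtain ⟨n, hn⟩ := pow_unbounded_of_one_lt z (show (1 : ℝ) < 2 by norm_num)
    exact this n z hz (hn.trans_le (pow_le_pow_right₀ (by norm_num) n.lt_two_pow_self.le))
  intro n
  induction n with
  | zero => exact fun z h1 h2 => base z (by simpa using h2) h1
  | succ n ih =>
    intro z hz1 hzn R hR D hD
    rcases lt_or_ge z 2 with hz2 | hz2
    · exact base z hz2 hz1 R hR D hD
    set w := Real.sqrt z with hw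
    have hw1 : 1 ≤ w := one_le_sqrt.2 hz1
    have hwz : w ≤ z := by
      rw [hw, sqrt_le_left (by linarith)]; nlinarith
    have hwn : w < 2 ^ (2 ^ n) := by
      rw [hw, sqrt_lt' (by positivity), ← pow_mul, ← pow_succ]; exact hzn
    set P₁ := P.filter fun p : ℕ => (p : ℝ) ≤ w with hP₁
    set B := P.filter fun p : ℕ => w < (p : ℝ) ∧ (p : ℝ) ≤ z with hB
    have hBp : ∀ p ∈ B, p.Prime ∧ w < (p : ℝ) ∧ (p : ℝ) ≤ z := fun p hp =>
      ⟨hP p (mem_filter.1 hp).1, (mem_filter.1 hp).2⟩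
    obtain ⟨hVB, hWB, h4B⟩ := hA z B hBp
    have hVP : V (P.filter fun p : ℕ => (p : ℝ) ≤ z) = V P₁ * V B := by
      rw [V, V, V, ← prod_union (disjoint_left.2 fun p h1 h2 => by
        have := (mem_filter.1 h1).2; have := (mem_filter.1 h2).2.1; linarith)]
      refine prod_congr ?_ fun _ _ => rfl
      ext p
      simp only [hP₁, hB, mem_filter, mem_union]
      constructor
      · rintro ⟨h1, h2⟩
        rcases le_or_gt (p : ℝ) w with h | h
        · exact .inl ⟨h1, h⟩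
        · exact .inr ⟨h1, h, h2⟩
      · rintro (⟨h1, h2⟩ | ⟨h1, -, h2⟩)
        · exact ⟨h1, h2.trans hwz⟩
        · exact ⟨h1, h2⟩
    have hfree : free a L P z = (free a L P w).filter fun x => ∀ p ∈ B, ¬(p : ℤ) ∣ x := by
      unfold free
      rw [filter_filter]
      refine filter_congr fun x _ => ?_
      simp only [hB, mem_filter]
      constructor
      · exact fun h => ⟨fun p hp => h p ⟨hp.1, hp.2.trans hwz⟩, fun p hp => h p ⟨hp.1, hp.2.2⟩⟩
      · rintro ⟨h1, h2⟩ p ⟨hp, hpz⟩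
        rcases le_or_gt (p : ℝ) w with h | h
        · exact h1 p ⟨hp, h⟩
        · exact h2 p ⟨hp, h, hpz⟩
    have hV1 : 0 < V P₁ := V_pos fun p hp => hP p (mem_filter.1 hp).1
    have hX := fun F (hF : F ⊆ B) => ih w hw1 hwn (R + c) (by omega) (D ∪ F) fun q hq => by
      rcases mem_union.1 hq with h | h
      · exact ⟨(hD q h).1, hwz.trans_lt (hD q h).2⟩
      · exact ⟨(hBp q (hF h)).1, (hBp q (hF h)).2.1⟩
    have hdd : ∀ F ⊆ B, dprod (D ∪ F) = dprod D * dprod F := fun F hF =>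
      prod_union (disjoint_left.2 fun q h1 h2 => absurd (hBp q (hF h2)).2.2 (not_le.2 (hD q h1).2))
    have hg := brun_gen (free a L P w) B D (X₀ := L * V P₁) (ε := G / 4 ^ (R + c))
      (R₀ := w ^ (4 * (R + c) + 4 * c + 2)) (by positivity) (by positivity) (by positivity)
      (fun p hp => (hBp p hp).1) (fun F hF => by
        have h := hX F hF
        rwa [hdd F hF] at h) hR
    rw [← hfree, mul_assoc (L : ℝ), ← hVP] at hg
    refine hg.trans (add_le_add ?_ ?_)
    · have hd : 0 ≤ dprod D := prod_nonneg fun p _ => p.cast_nonneg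
      refine div_le_div_of_nonneg_right ?_ hd
      rw [hVP]
      have h1 : 2 * ((∏ p ∈ B, (1 + 4 / (p : ℝ))) / 4 ^ R) + 2 * (G / 4 ^ (R + c)) * W B
          ≤ G / 4 ^ R * (1 / A) := by
        have h4 : G / 4 ^ (R + c) ≤ 1 / 4 ^ R := by
          rw [pow_add, div_le_div_iff₀ (by positivity) (by positivity)]
          nlinarith [mul_le_mul_of_nonneg_left hc.le (show (0 : ℝ) ≤ 4 ^ R by positivity)]
        have h5 : (∏ p ∈ B, (1 + 4 / (p : ℝ))) / 4 ^ R ≤ A / 4 ^ R :=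
          div_le_div_of_nonneg_right h4B (by positivity)
        have h6 : G / 4 ^ (R + c) * W B ≤ 1 / 4 ^ R * A :=
          mul_le_mul h4 hWB (W_pos B).le (by positivity)
        have e : G / 4 ^ R * (1 / A) = 4 * (A / 4 ^ R) := by
          simp only [G]; field_simp
        have e2 : 1 / (4 : ℝ) ^ R * A = A / 4 ^ R := by ring
        linarith
      calc _ ≤ G / 4 ^ R * (1 / A) * (L * V P₁) := mul_le_mul_of_nonneg_right h1 (by positivity)
        _ ≤ G / 4 ^ R * V B * (L * V P₁) := by gcongr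
        _ = _ := by ring
    · have hcard : (B.card : ℝ) + 1 ≤ z := card_add_one_le hz2 hBp
      have hwpow : w ^ (4 * (R + c) + 4 * c + 2) = z ^ (2 * R + 4 * c + 1) := by
        rw [show 4 * (R + c) + 4 * c + 2 = 2 * (2 * R + 4 * c + 1) by ring, pow_mul, hw,
          sq_sqrt (by linarith)]
      rw [hwpow]
      exact count_le hz2 (by positivity) hcard R c

end Vale.Agent.P013.Top
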