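import Vale.Agent.P013.Jac.Linear

/-! The gain just below `2` when a window of indices is missing. -/

namespace Vale.Agent.P013.Top

open Real Finset Jac

/-- Removing a window of length `g₀ m` below `q m` keeps the lower function just below `2` positive. -/
theorem window_gain (q : ℕ) (hq : 3 ≤ q) {g₀ : ℝ} (hg : 0 < g₀) (m₀ : ℕ) :
    ∃ m : ℕ, ∃ γ : ℝ, 200 ≤ m ∧ m₀ ≤ m ∧ 0 < γ ∧ ∀ N : ℕ, (q + 1) * m ≤ N → ∀ a : ℕ,
      3 * m ≤ a → a ≤ q * m → g₀ * m ≤ ((q * m - a : ℕ) : ℝ) →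
      γ ≤ 1 - (∑ r ∈ Icc (2 * m - 1) N \ Ico a (q * m), Phi m N r) / ((2 * m - 1 : ℕ) : ℝ) := by
  obtain ⟨c, hc, hdef⟩ := deficit_ge q hq
  obtain ⟨k, hk⟩ := exists_nat_ge (40000 / (c * g₀))
  obtain ⟨m, hm, hm₀, hkm⟩ : ∃ m, 200 ≤ m ∧ m₀ ≤ m ∧ k ≤ m :=
    ⟨k + m₀ + 200, by omega, by omega, by omega⟩
  refine ⟨m, c * g₀ / 4, hm, hm₀, by positivity, fun N hN a ha3 haq hlen => ?_⟩
  have hmR : (200 : ℝ) ≤ m := by exact_mod_cast hm
  have hmc : 40000 ≤ c * g₀ * m := by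
    rw [div_le_iff₀ (by positivity)] at hk
    have h1 : (k : ℝ) ≤ m := by exact_mod_cast hkm
    have := mul_le_mul_of_nonneg_right h1 (show 0 ≤ c * g₀ by positivity)
    linarith
  have hqN : q * m + m ≤ N := by rw [add_mul, one_mul] at hN; exact hN
  have hN4 : 4 * m ≤ N := le_trans (Nat.mul_le_mul_right m (show 4 ≤ q + 1 by omega)) hN
  have hsub : Ico a (q * m) ⊆ Icc (2 * m - 1) N := fun j hj => by
    have := mem_Ico.1 hj; exact mem_Icc.2 ⟨by omega, by omega⟩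
  have hwin : c * ((q * m - a : ℕ) : ℝ) ≤ ∑ j ∈ Ico a (q * m), Phi m N j := by
    refine le_trans (le_of_eq ?_) (card_nsmul_le_sum _ _ c fun j hj => ?_)
    · rw [nsmul_eq_mul, Nat.card_Ico, mul_comm]
    · have hjm := mem_Ico.1 hj
      rw [Phi, if_pos (by omega)]
      exact (hdef m N hm hN _ (by omega) (by omega)).1
  have e : ∀ j ∈ Icc (2 * m) N, Phi m N j = hat m N (j - m) := fun j hj => if_pos (mem_Icc.1 hj).2
  have hfull : ∑ j ∈ Icc (2 * m - 1) N, Phi m N j ≤ 2 * m + 16000 := by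
    rw [← add_sum_Ioc_eq_sum_Icc (show 2 * m - 1 ≤ N by omega),
      show Ioc (2 * m - 1) N = Icc (2 * m) N by ext; simp; omega,
      sum_congr rfl e,
      Phi, if_pos (show 2 * m - 1 ≤ N by omega), show 2 * m - 1 - m = m - 1 by omega,
      ← ps_eq hm le_rfl]
    have h := lower_at_two hm hN4
    have h5 := hat_le (N := N) hm (le_refl (m - 1))
    push_cast
    nlinarith [(ph_mem (N := N) hm (3 * m)).2]
  have hsum : ∑ r ∈ Icc (2 * m - 1) N \ Ico a (q * m), Phi m N r ≤ 2 * m + 16000 - c * g₀ * m := by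
    rw [sum_sdiff_eq_sub hsub]
    have := mul_le_mul_of_nonneg_left hlen hc.le
    linarith
  have hd : ((2 * m - 1 : ℕ) : ℝ) = 2 * m - 1 := by
    rw [Nat.cast_sub (by omega)]; push_cast; ring
  rw [hd, one_sub_div (by linarith), le_div_iff₀ (by linarith)]
  nlinarith

end Vale.Agent.P013.Top
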