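import Vale.Agent.P013.Top.Fund
import Vale.Agent.P013.Top.Gain

/-!
Jacobsthal's bound with a power saving for all `n` whose primes in `[k^δ, k)` are not almost all
primes there.
-/

namespace Vale.Agent.P013.Top

open Real Finset Filter Jac

theorem W_le_inv (S : Finset ℕ) (hS : ∀ p ∈ S, p.Prime) : W S ≤ (V S)⁻¹ := by
  rw [← one_div, le_div_iff₀ (V_pos hS), W, V, ← prod_mul_distrib]
  refine prod_le_one (fun p hp => ?_) fun p _ => ?_
  · have : (2 : ℝ) ≤ p := by exact_mod_cast (hS p hp).two_le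
    have : 1 / (p : ℝ) ≤ 1 / 2 := by gcongr
    exact mul_nonneg (by positivity) (by linarith)
  · nlinarith [sq_nonneg (1 / (p : ℝ))]

theorem four_prod_le (S : Finset ℕ) (hS : ∀ p ∈ S, p.Prime) :
    ∏ p ∈ S, (1 + 4 / (p : ℝ)) ≤ ((V S)⁻¹) ^ 4 := by
  calc ∏ p ∈ S, (1 + 4 / (p : ℝ)) ≤ ∏ p ∈ S, (1 + 1 / (p : ℝ)) ^ 4 := by
        refine prod_le_prod (fun p _ => by positivity) fun p _ => ?_
        have h : 0 ≤ 1 / (p : ℝ) := by positivity
        have e : 4 / (p : ℝ) = 4 * (1 / p) := by ring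
        rw [e]
        linarith [one_add_mul_le_pow (a := 1 / (p : ℝ)) (by linarith) 4]
    _ = W S ^ 4 := prod_pow S 4 _
    _ ≤ _ := pow_le_pow_left₀ (W_pos S).le (W_le_inv S hS) 4

theorem V_anti {S T : Finset ℕ} (hT : ∀ p ∈ T, p.Prime) (h : S ⊆ T) : V T ≤ V S := by
  have hsd : ∀ p ∈ T \ S, p.Prime := fun p hp => hT p (mem_sdiff.1 hp).1
  have : V T = V (T \ S) * V S := (prod_sdiff h).symm
  rw [this]
  exact mul_le_of_le_one_left (V_pos fun p hp => hT p (h hp)).le (V_le_one hsd)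

/-- The two-sided estimate from truncated inclusion-exclusion, relative to the main term. -/
theorem brun_rel (a : ℤ) (L : ℕ) {Mn : ℕ} (P₀ D : Finset ℕ) (hP : ∀ p ∈ P₀, p.Prime)
    (hD : ∀ q ∈ D, q.Prime) (hdisj : Disjoint D P₀) (hV : 1 / (Mn : ℝ) ≤ V P₀) (hMn : 1 ≤ Mn)
    {R : ℕ} (hR : 1 ≤ R) :
    |cnt ((Ico a (a + L)).filter fun x => ∀ p ∈ P₀, ¬(p : ℤ) ∣ x) D ∅ - (L : ℝ) * V P₀ / dprod D|
      ≤ 2 * (Mn : ℝ) ^ 5 / 4 ^ R * (L * V P₀) / dprod D
        + 2 * (2 ^ R * ((P₀.card : ℝ) + 1) ^ R) := by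
  refine (brun a L P₀ D hP hD hdisj hR).trans (add_le_add_left ?_ _)
  have hMn0 : (0 : ℝ) < Mn := by exact_mod_cast hMn
  have hVpos := V_pos hP
  have h1 : ∏ p ∈ P₀, (1 + 4 / (p : ℝ)) ≤ (Mn : ℝ) ^ 5 * V P₀ := by
    refine (four_prod_le P₀ hP).trans ?_
    have hi : (V P₀)⁻¹ ≤ Mn := by
      rw [inv_le_comm₀ hVpos hMn0, ← one_div]; exact hV
    have h2 : 1 ≤ (Mn : ℝ) * V P₀ := by rwa [div_le_iff₀' hMn0] at hV
    calc ((V P₀)⁻¹) ^ 4 ≤ (Mn : ℝ) ^ 4 * 1 := by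
          rw [mul_one]; exact pow_le_pow_left₀ (inv_nonneg.2 hVpos.le) hi 4
      _ ≤ (Mn : ℝ) ^ 4 * (Mn * V P₀) := mul_le_mul_of_nonneg_left h2 (by positivity)
      _ = _ := by ring
  have hd : 0 ≤ dprod D := prod_nonneg fun q _ => q.cast_nonneg
  refine le_trans (le_of_eq ?_) ((mul_le_mul_of_nonneg_right h1
    (show 0 ≤ 2 * (L : ℝ) / (4 ^ R * dprod D) by positivity)).trans (le_of_eq ?_)) <;>
  · field_simp


/-- The product over a set of at most `k` primes is at least `1 / (k + 1)`. -/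
theorem V_ge_card (S : Finset ℕ) (hS : ∀ p ∈ S, p.Prime) : 1 / ((S.card : ℝ) + 1) ≤ V S := by
  induction S using Finset.induction_on_max with
  | empty => simp [V]
  | insert p S hlt ih =>
    have hSp : ∀ q ∈ S, q.Prime := fun q hq => hS q (mem_insert_of_mem hq)
    have hnot : p ∉ S := fun h => lt_irrefl p (hlt p h)
    have hsub : S ⊆ Ico 2 p := fun q hq => mem_Ico.2 ⟨(hSp q hq).two_le, hlt q hq⟩
    have hc := card_le_card hsub
    rw [Nat.card_Ico] at hc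
    have hp2 : 2 ≤ p := (hS p (mem_insert_self _ _)).two_le
    have hp : (S.card : ℝ) + 2 ≤ p := by exact_mod_cast (by omega : S.card + 2 ≤ p)
    rw [card_insert_of_notMem hnot, V, prod_insert hnot]
    push_cast
    have h1 : ((S.card : ℝ) + 1) / ((S.card : ℝ) + 2) ≤ 1 - 1 / (p : ℝ) := by
      have : 1 / (p : ℝ) ≤ 1 / ((S.card : ℝ) + 2) := one_div_le_one_div_of_le (by positivity) hp
      have e : ((S.card : ℝ) + 1) / ((S.card : ℝ) + 2) = 1 - 1 / ((S.card : ℝ) + 2) := by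
        field_simp; ring
      linarith
    calc 1 / ((S.card : ℝ) + 1 + 1)
        = ((S.card : ℝ) + 1) / ((S.card : ℝ) + 2) * (1 / ((S.card : ℝ) + 1)) := by
          field_simp; ring
      _ ≤ (1 - 1 / (p : ℝ)) * V S :=
          mul_le_mul h1 (ih hSp) (by positivity) (le_trans (by positivity) h1)

/-- The product over primes up to `x` is at least `1 / x`. -/
theorem V_ge_inv {x : ℝ} (hx : 1 ≤ x) (S : Finset ℕ) (hS : ∀ p ∈ S, p.Prime ∧ (p : ℝ) ≤ x) :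
    1 / x ≤ V S := by
  refine le_trans (one_div_le_one_div_of_le (by positivity) ?_) (V_ge_card S fun p hp => (hS p hp).1)
  have hsub : S ⊆ Icc 2 ⌊x⌋₊ := fun p hp =>
    mem_Icc.2 ⟨(hS p hp).1.two_le, Nat.le_floor (hS p hp).2⟩
  have h1 := card_le_card hsub
  rw [Nat.card_Icc] at h1
  have h2 : 1 ≤ ⌊x⌋₊ := Nat.le_floor (by exact_mod_cast hx)
  have h3 : ((S.card + 1 : ℕ) : ℝ) ≤ ⌊x⌋₊ := by exact_mod_cast (by omega : S.card + 1 ≤ ⌊x⌋₊)
  push_cast at h3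
  exact h3.trans (Nat.floor_le (by linarith))

/-- Missing primes of the middle range lower all long products by the factor `ρ`. -/
theorem tail_deficit (s : Setup) {δ ρ c z t E : ℝ} (hc1 : 1 < c) (hρ : 0 < ρ) (hδ0 : 0 < δ)
    (hδ1 : δ ≤ 1) (hcδ : c ≤ s.K ^ δ) (hKz : s.K ≤ z) (hz : z ≤ s.K ^ (2 : ℝ))
    (hmid : δ / ρ ≤ V (s.P.filter fun p : ℕ => s.K ^ δ ≤ (p : ℝ) ∧ (p : ℝ) < s.K))
    (ht : log z / log c ≤ t)
    (hE : s.e * (t + 1 / δ * (2 + s.e)) ≤ E) :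
    V (below s.P c) ≤ V (below s.P z) * (ρ * (t + E)) := by
  have hK0 : 0 < s.K := by linarith [s.hK]
  have ha1 : 1 < s.K ^ δ := one_lt_rpow s.hK hδ0
  have haK : s.K ^ δ ≤ s.K := by
    calc s.K ^ δ ≤ s.K ^ (1 : ℝ) := rpow_le_rpow_of_exponent_le s.hK.le hδ1
      _ = _ := rpow_one _
  have hlc : 0 < log c := log_pos hc1
  have hlK : 0 < log s.K := log_pos s.hK
  have hpr : ∀ {x : ℝ}, 0 < V (below s.P x) := V_pos (s.prime_sub (filter_subset _ _))
  have h1 := s.tail_bound hc1 hcδ (haK.trans (hKz.trans hz))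
  have h3 := s.tail_bound s.hK hKz hz
  have hsplit : V (below s.P s.K) = V (below s.P (s.K ^ δ))
      * V (s.P.filter fun p : ℕ => s.K ^ δ ≤ (p : ℝ) ∧ (p : ℝ) < s.K) := by
    rw [V, V, V, ← prod_union (disjoint_left.2 fun p h1 h2 => by
      have := (mem_filter.1 h1).2; have := (mem_filter.1 h2).2.1; linarith)]
    refine prod_congr ?_ fun _ _ => rfl
    ext p
    simp only [below, mem_filter, mem_union]
    constructor
    · rintro ⟨h1, h2⟩
      rcases lt_or_ge (p : ℝ) (s.K ^ δ) with h | h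
      · exact .inl ⟨h1, h⟩
      · exact .inr ⟨h1, h, h2⟩
    · rintro (⟨h1, h2⟩ | ⟨h1, -, h2⟩)
      · exact ⟨h1, h2.trans_le haK⟩
      · exact ⟨h1, h2⟩
  rw [log_rpow hK0] at h1
  have he := s.he
  have hr2 : 1 ≤ log z / log s.K := by
    rw [le_div_iff₀ hlK, one_mul]; exact log_le_log hK0 hKz
  have hr2' : log z / log s.K ≤ 2 := by
    rw [div_le_iff₀ hlK, ← log_rpow hK0]; exact log_le_log (by linarith) hz
  have hr1 : 0 ≤ δ * log s.K / log c := by positivity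
  have hl2 : V (below s.P (s.K ^ δ)) * δ ≤ ρ * (V (below s.P z) * (log z / log s.K + s.e)) := by
    have h := mul_le_mul_of_nonneg_left hmid (hpr (x := s.K ^ δ)).le
    rw [← hsplit, ← mul_div_assoc, div_le_iff₀ hρ] at h
    exact h.trans (by rw [mul_comm _ ρ]; exact mul_le_mul_of_nonneg_left h3 hρ.le)
  have h4 : V (below s.P c) * δ
      ≤ ρ * (V (below s.P z) * (log z / log s.K + s.e)) * (δ * log s.K / log c + s.e) := by
    refine (mul_le_mul_of_nonneg_right h1 hδ0.le).trans ?_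
    rw [mul_right_comm]
    exact mul_le_mul_of_nonneg_right hl2 (by positivity)
  have h5 : (log z / log s.K + s.e) * (δ * log s.K / log c + s.e) ≤ δ * (t + E) := by
    have e1 : log z / log s.K * (δ * log s.K / log c) = δ * (log z / log c) := by field_simp
    have h6 : s.e * (δ * log s.K / log c) ≤ s.e * (δ * t) := by
      refine mul_le_mul_of_nonneg_left ?_ he
      rw [mul_div_assoc]
      refine mul_le_mul_of_nonneg_left (le_trans ?_ ht) hδ0.le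
      exact div_le_div_of_nonneg_right (log_le_log hK0 hKz) hlc.le
    have h7 : log z / log s.K * s.e ≤ 2 * s.e := mul_le_mul_of_nonneg_right hr2' he
    have h8 := mul_le_mul_of_nonneg_left ht hδ0.le
    have h9 := mul_le_mul_of_nonneg_left hE hδ0.le
    have e2 : δ * (s.e * (t + 1 / δ * (2 + s.e))) = s.e * (δ * t) + s.e * (2 + s.e) := by
      field_simp
    linarith
  refine le_of_mul_le_mul_right ?_ hδ0
  refine h4.trans (le_trans (le_of_eq ?_) (le_trans (mul_le_mul_of_nonneg_left h5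
    (show 0 ≤ ρ * V (below s.P z) by have := hpr (x := z); positivity)) (le_of_eq ?_))) <;> ring

/-- The window version of the bound on initial segments of the Buchstab sum. -/
theorem inner_window (s : Setup) {δ ρ z Δ : ℝ} {i q a : ℕ} (hρ : 0 < ρ) (hρ1 : ρ ≤ 1)
    (hδ0 : 0 < δ) (hδ1 : δ ≤ 1) (hKz : s.K ≤ z) (hz : z ≤ s.K ^ (2 : ℝ))
    (hi1 : 1 ≤ i) (hi : (i : ℝ) * log z ≤ s.m * log Δ) (hiq : i ≤ a) (haq : a ≤ q * s.m)
    (hqN : q * s.m ≤ s.N)
    (hmid : δ / ρ ≤ V (s.P.filter fun p : ℕ => s.K ^ δ ≤ (p : ℝ) ∧ (p : ℝ) < s.K))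
    (hcut : (s.m : ℝ) * log Δ ≤ δ * (q * s.m : ℕ) * log s.K)
    (ha : ρ * (q * s.m : ℕ) + 1 ≤ a)
    (he : (i : ℝ) * (s.e * (((s.N : ℝ) + 1) / i + 1 / δ * (2 + s.e))) ≤ 1) :
    ∀ l, i ≤ l → l ≤ s.N → ∑ p ∈ (below s.P z).filter (fun p => s.idx Δ p ≤ l),
        1 / (p : ℝ) * V ((below s.P z).filter fun p' => p' < p)
      ≤ V (below s.P z) * (((((Icc i s.N) \ Ico a (q * s.m)).filter (· ≤ l)).card : ℝ) / i
          + s.e) := by
  intro l hl hlN
  set T := below s.P z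
  have hz1 : 1 < z := s.hK.trans_le hKz
  have hlz : 0 < log z := log_pos hz1
  have hi0 : (0 : ℝ) < i := by exact_mod_cast hi1
  have hVT : 0 < V T := V_pos (s.prime_sub (filter_subset _ _))
  set S := (Icc i s.N) \ Ico a (q * s.m) with hS
  have hwt : ∀ p : ℕ, 0 ≤ 1 / (p : ℝ) * V (T.filter fun p' => p' < p) := fun p =>
    mul_nonneg (by positivity) (V_pos (s.prime_sub ((filter_subset _ _).trans (filter_subset _ _)))).le
  have hml : 0 < (s.m : ℝ) * log Δ := lt_of_lt_of_le (mul_pos hi0 hlz) hi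
  -- the bound beyond the cut
  have hcutb : ∀ l', q * s.m ≤ l' + 1 → i ≤ l' → l' ≤ s.N →
      ∑ p ∈ T.filter (fun p => s.idx Δ p ≤ l'), 1 / (p : ℝ) * V (T.filter fun p' => p' < p)
        ≤ V T * ((ρ * ((l' : ℝ) + 1) + 1 - i) / i) := by
    intro l' hq' hl' hlN'
    set c := exp ((s.m : ℝ) * log Δ / (l' + 1)) with hc
    have hc1 : 1 < c := one_lt_exp_iff.2 (by positivity)
    have hlc : log c = (s.m : ℝ) * log Δ / (l' + 1) := log_exp _
    have hcδ : c ≤ s.K ^ δ := by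
      rw [hc, rpow_def_of_pos (by linarith [s.hK]), exp_le_exp, div_le_iff₀ (by positivity)]
      have : ((q * s.m : ℕ) : ℝ) ≤ (l' : ℝ) + 1 := by exact_mod_cast hq'
      have h2 := mul_le_mul_of_nonneg_left this
        (show 0 ≤ δ * log s.K from mul_nonneg hδ0.le (log_nonneg s.hK.le))
      linarith
    have hsub : T.filter (fun p => s.idx Δ p ≤ l') ⊆ T.filter (fun p : ℕ => c ≤ p) := by
      intro p hp
      obtain ⟨hpT, hpl⟩ := mem_filter.1 hp
      have hpp := (s.hP p (filter_subset _ _ hpT)).1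
      have hlp : 0 < log (p : ℝ) := log_pos (by exact_mod_cast hpp.one_lt)
      refine mem_filter.2 ⟨hpT, ?_⟩
      have h := (Nat.lt_floor_add_one ((s.m : ℝ) * log Δ / log (p : ℝ))).le.trans
        (add_le_add_left (show ((s.idx Δ p : ℕ) : ℝ) ≤ l' by exact_mod_cast hpl) 1)
      rw [hc, ← exp_log (show (0 : ℝ) < p by exact_mod_cast hpp.pos), exp_le_exp,
        div_le_iff₀ (by positivity)]
      rw [div_le_iff₀ hlp] at h
      linarith
    refine (sum_le_sum_of_subset_of_nonneg hsub fun p _ _ => hwt p).trans ?_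
    have hcz : c ≤ z := hcδ.trans (le_trans (by
      calc s.K ^ δ ≤ s.K ^ (1 : ℝ) := rpow_le_rpow_of_exponent_le s.hK.le hδ1
        _ = s.K := rpow_one _) hKz)
    rw [V_tail, below_below s.P hcz]
    have ht : log z / log c ≤ ((l' : ℝ) + 1) / i := by
      rw [hlc, div_div_eq_mul_div, div_le_div_iff₀ hml hi0]
      nlinarith
    have hE : s.e * (((l' : ℝ) + 1) / i + 1 / δ * (2 + s.e)) ≤ 1 / (i : ℝ) := by
      rw [le_div_iff₀ hi0, mul_comm]
      refine le_trans (mul_le_mul_of_nonneg_left (mul_le_mul_of_nonneg_left ?_ s.he) hi0.le) he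
      gcongr
    have h := tail_deficit s hc1 hρ hδ0 hδ1 hcδ hKz hz hmid ht hE
    have e : V T * ((ρ * ((l' : ℝ) + 1) + 1 - i) / i)
        = V T * (ρ * (((l' : ℝ) + 1) / i + 1 / i)) + V T * ((1 - ρ) / i) - V T := by
      field_simp; ring
    have : 0 ≤ V T * ((1 - ρ) / i) :=
      mul_nonneg hVT.le (div_nonneg (by linarith) hi0.le)
    rw [e]
    linarith
  have hfin : ∀ (σ : ℝ) (n : ℕ), σ ≤ n →
      (∑ p ∈ T.filter (fun p => s.idx Δ p ≤ l), 1 / (p : ℝ) * V (T.filter fun p' => p' < p))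
        ≤ V T * (σ / i) → n ≤ (S.filter (· ≤ l)).card →
      (∑ p ∈ T.filter (fun p => s.idx Δ p ≤ l), 1 / (p : ℝ) * V (T.filter fun p' => p' < p))
        ≤ V T * (((S.filter (· ≤ l)).card : ℝ) / i + s.e) := by
    intro σ n hσ hsum hn
    refine hsum.trans (mul_le_mul_of_nonneg_left ?_ hVT.le)
    have h1 : σ ≤ (S.filter (· ≤ l)).card := hσ.trans (by exact_mod_cast hn)
    linarith [div_le_div_of_nonneg_right h1 hi0.le, s.he]
  rcases lt_or_ge l a with hla | hla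
  · have hcard : (S.filter (· ≤ l)).card = l + 1 - i := by
      rw [show S.filter (· ≤ l) = Icc i l by
        ext r; simp only [hS, mem_filter, Finset.mem_sdiff, mem_Icc, mem_Ico]; omega, Nat.card_Icc]
    rw [hcard]
    exact s.inner hi1 hz1 hz hi hl
  rcases lt_or_ge l (q * s.m) with hlq | hlq
  · have hmono := sum_le_sum_of_subset_of_nonneg
      (f := fun p : ℕ => 1 / (p : ℝ) * V (T.filter fun p' => p' < p))
      (show T.filter (fun p => s.idx Δ p ≤ l) ⊆ T.filter (fun p => s.idx Δ p ≤ q * s.m - 1) from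
        monotone_filter_right _ fun p h => by omega) fun p _ _ => hwt p
    have hb := hcutb (q * s.m - 1) (by omega) (by omega) (by omega)
    refine hfin _ (a - i) ?_ (hmono.trans hb) ?_
    · rw [Nat.cast_sub hiq, Nat.cast_sub (by omega : 1 ≤ q * s.m)]
      push_cast at ha ⊢
      linarith
    · rw [show S.filter (· ≤ l) = Ico i a by
        ext r; simp only [hS, mem_filter, Finset.mem_sdiff, mem_Icc, mem_Ico]; omega, Nat.card_Ico]
  · refine hfin _ (l + 1 - i - (q * s.m - a)) ?_ (hcutb l (by omega) hl hlN) ?_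
    · rw [Nat.cast_sub (by omega), Nat.cast_sub (by omega), Nat.cast_sub haq]
      have h1 : ((q * s.m : ℕ) : ℝ) ≤ (l : ℝ) + 1 := by exact_mod_cast (by omega : q * s.m ≤ l + 1)
      have h2 := mul_le_mul_of_nonneg_left h1 (show 0 ≤ 1 - ρ by linarith)
      push_cast at ha h2 ⊢
      linarith
    · rw [show S.filter (· ≤ l) = Icc i l \ Ico a (q * s.m) by
        ext r; simp only [hS, mem_filter, Finset.mem_sdiff, mem_Icc, mem_Ico]; omega,
        card_sdiff_of_subset (fun r hr => by have := mem_Ico.1 hr; exact mem_Icc.2 ⟨by omega, by omega⟩),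
        Nat.card_Icc, Nat.card_Ico]

/-- The upper bounds at the primes of the top step. -/
theorem top_upper (s : Setup) {z Δ : ℝ} {i : ℕ} (hzK : z ≤ s.K ^ (2 : ℝ)) (hΔ1 : 1 ≤ Δ)
    (hΔK : Δ ≤ s.K ^ (2 : ℝ)) (hlev : (i : ℝ) * log z ≤ s.m * log Δ) (hi1 : 1 ≤ i)
    (hi : 2 * s.m - 1 ≤ i) {p : ℕ} (hp : p ∈ below s.P z) :
    s.Upper (insert p ∅) (p : ℝ) (Δ / p) (s.idx Δ p - s.m) := by
  have hm := s.hm
  obtain ⟨hpP, hpz⟩ := mem_filter.1 hp
  obtain ⟨h1, -, h3⟩ := s.idx_mem hΔK hΔ1 hlev hp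
  have hp1 : (1 : ℝ) < p := by exact_mod_cast (s.hP p hpP).1.one_lt
  have hlp : 0 < log (p : ℝ) := log_pos hp1
  have hjm : s.m ≤ s.idx Δ p := le_trans (by omega) h1
  have hm0 : (0 : ℝ) < s.m := by exact_mod_cast (by omega : 0 < s.m)
  have hpΔ : (p : ℝ) ≤ Δ := by
    rw [← log_le_log_iff (by linarith) (by linarith)]
    exact le_of_mul_le_mul_left (le_trans (mul_le_mul_of_nonneg_right
      (show (s.m : ℝ) ≤ (s.idx Δ p : ℝ) by exact_mod_cast hjm) hlp.le) h3) hm0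
  refine (s.bounds _ (insert p ∅) p (Δ / p) _ rfl (insert_subset hpP (empty_subset _))
    (fun q hq => le_of_eq (by rw [(mem_insert.1 hq).resolve_right (notMem_empty q)]))
    hp1 (hpz.le.trans hzK) (by rwa [le_div_iff₀ (by linarith), one_mul])
    ((div_le_self (by linarith) hp1.le).trans hΔK) ?_).2 (by omega)
  rw [Nat.cast_sub hjm, log_div (by linarith) (by linarith)]
  linarith

theorem choose_R (m c : ℕ) (hm : 200 ≤ m) {γ G δ : ℝ} (hγ : 0 < γ) (hG : 0 ≤ G) (hδ : 0 < δ) :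
    ∃ R : ℕ, 1 ≤ R ∧ 1 / (8 * m * ((4 * R + 4 * c + 2 : ℕ) : ℝ)) < δ ∧
      1 / (8 * m * ((4 * R + 4 * c + 2 : ℕ) : ℝ)) ≤ 1 / (16 * (m : ℝ)) ∧
      G / 4 ^ R ≤ γ * (1 / (8 * m * ((4 * R + 4 * c + 2 : ℕ) : ℝ)) / 3) ^ 2 / 4 := by
  have hmR : (200 : ℝ) ≤ m := by exact_mod_cast hm
  have hc0 : (0 : ℝ) ≤ c := c.cast_nonneg
  set C : ℝ := 24 * m * (4 * c + 6) with hC
  have hC0 : 0 < C := by positivity
  obtain ⟨R₁, hR₁⟩ := eventually_atTop.1
    ((tendsto_pow_const_div_const_pow_of_one_lt 2 (show (1 : ℝ) < 4 by norm_num)).eventually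
      (eventually_le_nhds (show (0 : ℝ) < γ / (4 * C ^ 2 * (G + 1)) by positivity)))
  obtain ⟨R₂, hR₂⟩ := exists_nat_ge (1 / δ)
  obtain ⟨R, hR1, hRa, hRb'⟩ : ∃ R, 1 ≤ R ∧ R₁ ≤ R ∧ R₂ ≤ R :=
    ⟨R₁ + R₂ + 1, by omega, by omega, by omega⟩
  have hRR : (1 : ℝ) ≤ R := by exact_mod_cast hR1
  refine ⟨R, hR1, ?_⟩
  set h : ℝ := ((4 * R + 4 * c + 2 : ℕ) : ℝ) with hh
  have hhR : h = 4 * R + 4 * c + 2 := by rw [hh]; push_cast; ring
  have hh6 : 6 ≤ h := by rw [hhR]; linarith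
  refine ⟨?_, one_div_le_one_div_of_le (by positivity) (by nlinarith), ?_⟩
  · rw [div_lt_iff₀ (by positivity)]
    have h1 : 1 / δ ≤ R := hR₂.trans (by exact_mod_cast hRb')
    rw [div_le_iff₀ hδ] at h1
    have h2 : (R : ℝ) < 8 * m * h := by rw [hhR]; nlinarith
    have := mul_lt_mul_of_pos_right h2 hδ
    linarith
  · have hRb : (R : ℝ) ^ 2 / 4 ^ R ≤ γ / (4 * C ^ 2 * (G + 1)) := hR₁ R hRa
    have hhle : 24 * (m : ℝ) * h ≤ C * R := by
      rw [hC, hhR, mul_assoc (24 * (m : ℝ))]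
      refine mul_le_mul_of_nonneg_left ?_ (by positivity)
      nlinarith
    have h2 : 1 / (C * R) ≤ 1 / (8 * m * h) / 3 := by
      refine (one_div_le_one_div_of_le (by positivity) hhle).trans (le_of_eq ?_)
      field_simp
      ring
    refine le_trans ?_ (div_le_div_of_nonneg_right
      (mul_le_mul_of_nonneg_left (pow_le_pow_left₀ (by positivity) h2 2) hγ.le) (by norm_num))
    rw [div_le_div_iff₀ (by positivity) (by positivity)] at hRb
    field_simp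
    have : 0 ≤ (R : ℝ) ^ 2 * C ^ 2 := by positivity
    nlinarith

theorem third_le {K θ e w : ℝ} {T : Finset ℕ} (hK : 1 < K) (hθ : 0 < θ) (hθ1 : θ ≤ 1)
    (he0 : 0 ≤ e) (he : e ≤ 1) (hw0 : 0 ≤ w) (hw : w ≤ 1) (hTp : ∀ p ∈ T, p.Prime)
    (hT : ∀ p ∈ T, K ^ θ ≤ (p : ℝ) ∧ (p : ℝ) ≤ K ^ (1 + w))
    (hdense : ∀ (S : Finset ℕ) (c z : ℝ), K ^ θ ≤ c → c ≤ z → z ≤ K ^ (2 : ℝ) →
      (∀ p ∈ S, p.Prime ∧ c ≤ p ∧ (p : ℝ) ≤ z) → (V S)⁻¹ ≤ log z / log c + e) :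
    θ / 3 ≤ V T := by
  have hK0 : 0 < K := by linarith
  have h1 := hdense T (K ^ θ) (K ^ (1 + w)) le_rfl
    (rpow_le_rpow_of_exponent_le hK.le (by linarith)) (rpow_le_rpow_of_exponent_le hK.le (by linarith))
    fun p hp => ⟨hTp p hp, hT p hp⟩
  rw [log_rpow hK0, log_rpow hK0, mul_div_mul_right _ _ (log_pos hK).ne'] at h1
  have h2 : (1 + w) / θ + e ≤ 3 / θ := by
    have : e ≤ 1 / θ := he.trans (by rw [le_div_iff₀ hθ]; linarith)
    have : (1 + w) / θ ≤ 2 / θ := by gcongr; linarith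
    have : 2 / θ + 1 / θ = 3 / θ := by ring
    linarith
  have h3 := h1.trans h2
  rwa [inv_le_comm₀ (V_pos hTp) (by positivity), inv_div] at h3

theorem combine {v γ VT B ε WT L' X₀ RD cn : ℝ} (hv : 0 < v) (hγ : 0 < γ) (hc : 0 ≤ v * γ / 2)
    (hX : L' ≤ X₀) (hX₀ : 0 ≤ X₀) (hVT : v ≤ VT) (hgain : γ ≤ B) (hVT0 : 0 ≤ VT) (hW0 : 0 ≤ WT)
    (hWT : WT ≤ 1 / v) (hε : ε ≤ γ * v ^ 2 / 2) (hRD : 0 ≤ RD)
    (h : X₀ * (VT * B - ε * WT) - RD * WT ≤ cn) :
    L' * (v * γ / 2) ≤ cn + RD / v := by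
  have h1 := mul_le_mul hVT hgain hγ.le hVT0
  have h2 : ε * WT ≤ γ * v ^ 2 / 2 * (1 / v) := mul_le_mul hε hWT hW0 (by positivity)
  have h3 : γ * v ^ 2 / 2 * (1 / v) = v * γ / 2 := by field_simp
  have h5 : RD * WT ≤ RD / v := by
    rw [div_eq_mul_one_div RD v]; exact mul_le_mul_of_nonneg_left hWT hRD
  have h6 : X₀ * (v * γ / 2) ≤ X₀ * (VT * B - ε * WT) := mul_le_mul_of_nonneg_left (by linarith) hX₀
  have h7 := mul_le_mul_of_nonneg_right hX hc
  linarith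

set_option maxHeartbeats 1000000 in
/-- The sieve below `z = k^(1 + 1/4m)` keeps a positive proportion. -/
theorem sifted (δ η : ℝ) (hδ : 0 < δ) (hδ1 : δ ≤ 1) (hη : 0 < η) :
    ∃ (m : ℕ) (θ v γ : ℝ), 200 ≤ m ∧ 0 < θ ∧ θ ≤ 1 / (16 * m) ∧ 0 < v ∧ 0 < γ ∧ ∃ K₀ : ℝ,
    ∀ K : ℝ, K₀ ≤ K → ∀ P : Finset ℕ, (∀ p ∈ P, p.Prime) →
      (1 + η) * δ ≤ V (P.filter fun p : ℕ => K ^ δ ≤ (p : ℝ) ∧ (p : ℝ) < K) →
      ∀ (a : ℤ) (L : ℕ),
      (L : ℝ) * K ^ (-θ) * γ ≤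
        cnt (free a L P (K ^ θ)) ∅
            (below (P.filter fun p : ℕ => K ^ θ < (p : ℝ)) (K ^ (1 + 1 / (4 * m : ℝ))))
          + K ^ (1 / (8 * m : ℝ)) * K ^ (2 - 1 / (2 * m : ℝ)) / v := by
  set ρ : ℝ := 1 / (1 + η) with hρ
  have hρ0 : 0 < ρ := by positivity
  have hρ1 : ρ < 1 := by rw [hρ, div_lt_one (by linarith)]; linarith
  obtain ⟨q, hq⟩ := exists_nat_ge (max (3 * (1 + η)) (2 / δ))
  have hq3 : 3 * (1 + η) ≤ q := le_trans (le_max_left _ _) hq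
  have hqδ : 2 ≤ q * δ := by
    have := le_trans (le_max_right _ _) hq
    rwa [div_le_iff₀ hδ] at this
  have hq3' : 3 ≤ q := by exact_mod_cast (by linarith : (3 : ℝ) ≤ q)
  have hqρ : 3 ≤ q * ρ := by rw [hρ, mul_one_div, le_div_iff₀ (by linarith)]; linarith
  have hgap : 0 < (1 - ρ) * q := mul_pos (by linarith) (by linarith)
  obtain ⟨m₀, hm₀⟩ := exists_nat_ge (4 / ((1 - ρ) * q))
  obtain ⟨m, γ, hm, hmm, hγ, htop⟩ := window_gain q hq3' (half_pos hgap) m₀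
  obtain ⟨G, c, hG, hfund⟩ := fundamental
  have hmR : (200 : ℝ) ≤ m := by exact_mod_cast hm
  have hgapm : 4 ≤ (1 - ρ) * q * m := by
    rw [div_le_iff₀ hgap] at hm₀
    have h1 : (m₀ : ℝ) ≤ m := by exact_mod_cast hmm
    have := mul_le_mul_of_nonneg_left h1 hgap.le
    linarith
  obtain ⟨R, hR1, hθδ, hθ16, hG4⟩ := choose_R m c hm hγ hG hδ
  set h : ℕ := 4 * R + 4 * c + 2 with hh
  set θ : ℝ := 1 / (8 * m * h) with hθ
  have hθ0 : 0 < θ := by positivity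
  have hθ1 : θ ≤ 1 := hθ16.trans (by rw [div_le_one (by positivity)]; linarith)
  obtain ⟨N', hN'⟩ := exists_nat_ge (2 * m / θ)
  set N := max ((q + 1) * m) N' with hN
  have hNθ : (2 * m : ℝ) ≤ N * θ := by
    rw [← div_le_iff₀ hθ0]
    exact hN'.trans (by exact_mod_cast le_max_right _ _)
  have hN4 : 4 * m ≤ N := le_trans (Nat.mul_le_mul_right m (by omega)) (le_max_left _ _)
  set v : ℝ := θ / 3 with hv
  have hv0 : 0 < v := by positivity
  set e : ℝ := min (min 1 (γ * v ^ 2 / 80000)) (1 / (2 * m * ((N : ℝ) + 1 + 3 / δ))) with he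
  have he0 : 0 < e := lt_min (lt_min one_pos (by positivity)) (by positivity)
  have he1 : e ≤ 1 := le_trans (min_le_left _ _) (min_le_left _ _)
  have heγ : e ≤ γ * v ^ 2 / 80000 := le_trans (min_le_left _ _) (min_le_right _ _)
  obtain ⟨K₁, hK₁⟩ := dense he0 hθ0 hθ1
  refine ⟨m, θ, v, v * γ / 2, hm, hθ0, hθ16, hv0, by positivity, max K₁ 2, ?_⟩
  intro K hK P hP hmid a₀ L
  have hK2 : 2 ≤ K := le_trans (le_max_right _ _) hK
  have hK1 : 1 < K := by linarith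
  have hK0 : 0 < K := by linarith
  set P₀ := P.filter fun p : ℕ => (p : ℝ) ≤ K ^ θ
  set P' := P.filter fun p : ℕ => K ^ θ < (p : ℝ) with hP'
  have hKθ : 1 ≤ K ^ θ := one_le_rpow hK1.le hθ0.le
  have hP₀ : ∀ p ∈ P₀, p.Prime := fun p hp => hP p (mem_filter.1 hp).1
  have hR₀eq : (K ^ θ) ^ h = K ^ (1 / (8 * m : ℝ)) := by
    rw [← rpow_natCast _ h, ← rpow_mul hK0.le, hθ]
    congr 1
    have : (h : ℝ) ≠ 0 := Nat.cast_ne_zero.2 (show 4 * R + 4 * c + 2 ≠ 0 by omega)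
    field_simp
  let s : Setup :=
    { m := m, N := N, P := P', X := free a₀ L P (K ^ θ), X₀ := L * V P₀, ε₀ := G / 4 ^ R,
      R₀ := (K ^ θ) ^ h, e := e, K := K, θ := θ
      hm := hm, hθ := hθ0, hK := hK1
      hX₀ := mul_nonneg L.cast_nonneg (V_pos hP₀).le
      hε₀ := by positivity
      hR₀ := by positivity
      he := he0.le
      hN := hNθ
      hN4 := hN4
      hP := fun p hp => ⟨hP p (mem_filter.1 hp).1, (mem_filter.1 hp).2⟩
      hdense := fun S c z h1 h2 h3 h4 => hK₁ K ((le_max_left _ _).trans hK) S c z h1 h2 h3 h4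
      hcount := fun D hD => hfund P hP a₀ L _ hKθ R hR1 D fun x hx =>
        ⟨hP x (mem_filter.1 (hD hx)).1, (mem_filter.1 (hD hx)).2⟩ }
  have h4m : (0 : ℝ) < 1 / (4 * m) := by positivity
  set z : ℝ := K ^ (1 + 1 / (4 * m : ℝ)) with hz
  set Δ : ℝ := K ^ (2 - 1 / (2 * m : ℝ)) with hΔ
  have h2m : (1 : ℝ) / (2 * m) ≤ 1 := by rw [div_le_one (by positivity)]; linarith
  have h8m : (1 : ℝ) / (4 * m) ≤ 1 := by rw [div_le_one (by positivity)]; linarith
  have hz1 : 1 < z := one_lt_rpow hK1 (by linarith)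
  have hKz : K ≤ z := by
    calc K = K ^ (1 : ℝ) := (rpow_one K).symm
      _ ≤ z := rpow_le_rpow_of_exponent_le hK1.le (by linarith)
  have hzK : z ≤ K ^ (2 : ℝ) := rpow_le_rpow_of_exponent_le hK1.le (by linarith)
  have hΔ1 : 1 ≤ Δ := one_le_rpow hK1.le (by linarith)
  have hΔK : Δ ≤ K ^ (2 : ℝ) := rpow_le_rpow_of_exponent_le hK1.le
    (by linarith [show 0 ≤ 1 / (2 * m : ℝ) by positivity])
  have hlev : ((2 * m - 1 : ℕ) : ℝ) * log z ≤ m * log Δ := by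
    rw [hz, hΔ, log_rpow hK0, log_rpow hK0, Nat.cast_sub (by omega), ← mul_assoc, ← mul_assoc]
    refine mul_le_mul_of_nonneg_right ?_ (log_nonneg hK1.le)
    push_cast
    rw [show (m : ℝ) * (2 - 1 / (2 * m)) = 2 * m - 1 / 2 by field_simp,
      show (2 * (m : ℝ) - 1) * (1 + 1 / (4 * m)) = 2 * m - 1 / 2 - 1 / (4 * m) by field_simp; ring]
    linarith
  -- the window
  set a : ℕ := ⌈ρ * ((q * m : ℕ) : ℝ)⌉₊ + 1 with ha
  have ha1 : ρ * ((q * m : ℕ) : ℝ) + 1 ≤ a := by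
    rw [ha, Nat.cast_add, Nat.cast_one]
    linarith [Nat.le_ceil (ρ * ((q * m : ℕ) : ℝ))]
  have ha2 : (a : ℝ) ≤ ρ * ((q * m : ℕ) : ℝ) + 2 := by
    rw [ha, Nat.cast_add, Nat.cast_one]
    linarith [Nat.ceil_lt_add_one (show 0 ≤ ρ * ((q * m : ℕ) : ℝ) by positivity)]
  have hqm : ((q * m : ℕ) : ℝ) = q * m := by push_cast; rfl
  have ha3 : 3 * m ≤ a := by
    have h1 := mul_le_mul_of_nonneg_right hqρ (Nat.cast_nonneg (α := ℝ) m)
    have : ((3 * m : ℕ) : ℝ) ≤ a := by rw [hqm] at ha1; push_cast; linarith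
    exact_mod_cast this
  have haq : a ≤ q * m := by
    have : (a : ℝ) ≤ ((q * m : ℕ) : ℝ) := by rw [hqm] at ha2 ⊢; linarith
    exact_mod_cast this
  have hlen : (1 - ρ) * q / 2 * m ≤ ((q * m - a : ℕ) : ℝ) := by
    rw [Nat.cast_sub haq]; rw [hqm] at ha2 ⊢; linarith
  have hqN : q * m ≤ N := le_trans (Nat.mul_le_mul_right m (Nat.le_succ q)) (le_max_left _ _)
  have hmid' : δ / ρ ≤ V (P'.filter fun p : ℕ => K ^ δ ≤ (p : ℝ) ∧ (p : ℝ) < K) := by
    have e1 : P'.filter (fun p : ℕ => K ^ δ ≤ (p : ℝ) ∧ (p : ℝ) < K)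
        = P.filter fun p : ℕ => K ^ δ ≤ (p : ℝ) ∧ (p : ℝ) < K := by
      rw [hP', filter_filter]
      refine filter_congr fun p _ => ⟨fun h => h.2, fun h => ⟨?_, h⟩⟩
      exact (rpow_lt_rpow_of_exponent_lt hK1 hθδ).trans_le h.1
    rw [e1, hρ, div_div_eq_mul_div, div_one, mul_comm]
    exact hmid
  have hi2 : 1 ≤ 2 * m - 1 := by omega
  have hcut : (m : ℝ) * log Δ ≤ δ * ((q * m : ℕ) : ℝ) * log K := by
    rw [hΔ, log_rpow hK0, ← mul_assoc, hqm]
    refine mul_le_mul_of_nonneg_right ?_ (log_nonneg hK1.le)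
    have h1 : 0 ≤ 1 / (2 * m : ℝ) := by positivity
    nlinarith
  have heN : (((2 * m - 1 : ℕ)) : ℝ) * (e * (((N : ℝ) + 1) / ((2 * m - 1 : ℕ) : ℝ)
      + 1 / δ * (2 + e))) ≤ 1 := by
    have hi0 : (1 : ℝ) ≤ ((2 * m - 1 : ℕ) : ℝ) := by exact_mod_cast hi2
    have hi3 : ((2 * m - 1 : ℕ) : ℝ) ≤ 2 * m := by
      rw [Nat.cast_sub (by omega)]; push_cast; linarith
    have h1 : ((N : ℝ) + 1) / ((2 * m - 1 : ℕ) : ℝ) + 1 / δ * (2 + e) ≤ (N : ℝ) + 1 + 3 / δ := by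
      refine add_le_add (div_le_self (by positivity) hi0) ?_
      rw [one_div_mul_eq_div]
      gcongr; linarith
    have h2 : e ≤ 1 / (2 * m * ((N : ℝ) + 1 + 3 / δ)) := min_le_right _ _
    calc _ ≤ (2 * m : ℝ) * (1 / (2 * m * ((N : ℝ) + 1 + 3 / δ)) * ((N : ℝ) + 1 + 3 / δ)) :=
          mul_le_mul hi3 (mul_le_mul h2 h1 (by positivity) (by positivity)) (by positivity)
            (by positivity)
      _ = 1 := by field_simp
  have hcap := inner_window s (δ := δ) (ρ := ρ) (z := z) (Δ := Δ) (i := 2 * m - 1) (q := q) (a := a)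
    hρ0 hρ1.le hδ hδ1 hKz hzK hi2 hlev (show 2 * m - 1 ≤ a by omega) haq hqN hmid' hcut ha1 heN
  have hlow := s.lower_step (D := ∅) (z := z) (Δ := Δ) (i := 2 * m - 1)
    (S := Icc (2 * m - 1) N \ Ico a (q * m))
    (empty_subset _) (fun q hq => absurd hq (notMem_empty q)) hΔ1 hΔK le_rfl
    (show 2 * m - 1 ≤ N + 1 by omega) hlev sdiff_subset hcap
    (fun p hp => top_upper s hzK hΔ1 hΔK hlev (show 1 ≤ 2 * m - 1 by omega) le_rfl hp)
  have hgain := htop N (le_max_left _ _) a ha3 haq hlen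
  have hTp : ∀ p ∈ below P' z, p.Prime := fun p hp =>
    hP p (mem_filter.1 (mem_filter.1 hp).1).1
  have hVT : v ≤ V (below P' z) := third_le hK1 hθ0 hθ1 he0.le he1 h4m.le h8m hTp
    (fun p hp => ⟨(mem_filter.1 (mem_filter.1 hp).1).2.le, (mem_filter.1 hp).2.le⟩)
    (fun S c z h1 h2 h3 h4 => hK₁ K ((le_max_left _ _).trans hK) S c z h1 h2 h3 h4)
  have hWT : W (below P' z) ≤ 1 / v := (W_le_inv _ hTp).trans (by
    rw [one_div]; exact inv_anti₀ hv0 hVT)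
  have hε : G / 4 ^ R + 20000 * e ≤ γ * v ^ 2 / 2 := by
    linarith [mul_le_mul_of_nonneg_left heγ (show (0 : ℝ) ≤ 20000 by norm_num)]
  have hlow' : (L : ℝ) * V P₀ * (V (below P' z) * (1 - (∑ r ∈ Icc (2 * m - 1) N \ Ico a (q * m),
      Phi m N r) / ((2 * m - 1 : ℕ) : ℝ)) - (G / 4 ^ R + 20000 * e) * W (below P' z))
      - (K ^ θ) ^ h * Δ * W (below P' z) ≤ cnt (free a₀ L P (K ^ θ)) ∅ (below P' z) := by
    have h := hlow
    rw [show dprod ∅ = 1 from prod_empty, div_one] at h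
    exact h
  rw [hR₀eq] at hlow'
  have hX : (L : ℝ) * K ^ (-θ) ≤ L * V P₀ := by
    refine mul_le_mul_of_nonneg_left ?_ L.cast_nonneg
    rw [rpow_neg hK0.le, ← one_div]
    exact V_ge_inv hKθ P₀ fun p hp => ⟨hP₀ p hp, (mem_filter.1 hp).2⟩
  exact combine hv0 hγ (by positivity) hX (mul_nonneg L.cast_nonneg (V_pos hP₀).le) hVT hgain
    (V_pos hTp).le (W_pos _).le hWT hε (by positivity) hlow'

/-- For large `k` some element of the interval is free of all the primes. -/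
theorem large_case (δ η : ℝ) (hδ : 0 < δ) (hδ1 : δ ≤ 1) (hη : 0 < η) :
    ∃ c : ℝ, 0 < c ∧ c ≤ 1 ∧ ∃ k₀ : ℕ, ∀ k : ℕ, k₀ ≤ k → ∀ P : Finset ℕ, (∀ p ∈ P, p.Prime) →
      P.card ≤ k →
      (1 + η) * δ ≤ V (P.filter fun p : ℕ => (k : ℝ) ^ δ ≤ (p : ℝ) ∧ (p : ℝ) < (k : ℝ)) →
      ∀ (a : ℤ) (L : ℕ), (k : ℝ) ^ (2 - c) ≤ L →
        ∃ x ∈ Ico a (a + L), ∀ p ∈ P, ¬(p : ℤ) ∣ x := by
  obtain ⟨m, θ, v, γ, hm, hθ, hθ16, hv, hγ, K₀, hsift⟩ := sifted δ η hδ hδ1 hη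
  have hmR : (200 : ℝ) ≤ m := by exact_mod_cast hm
  obtain ⟨k₁, hk₁⟩ := eventually_atTop.1 ((tendsto_natCast_atTop_atTop.eventually_ge_atTop
    (max K₀ 2)).and (((tendsto_rpow_atTop (show (0 : ℝ) < 1 / (16 * m) by positivity)).comp
    tendsto_natCast_atTop_atTop).eventually_ge_atTop ((3 + 1 / v) / γ)))
  refine ⟨1 / (4 * m), by positivity, by rw [div_le_one (by positivity)]; linarith, k₁,
    fun k hk P hP hcard hmid a L hL => ?_⟩
  obtain ⟨hkK, hkpow⟩ := hk₁ k hk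
  simp only [Function.comp_apply] at hkpow
  set K : ℝ := (k : ℝ)
  have hK2 : 2 ≤ K := le_trans (le_max_right _ _) hkK
  have hK1 : 1 < K := by linarith
  have hK0 : 0 < K := by linarith
  have hs := hsift K ((le_max_left _ _).trans hkK) P hP hmid a L
  set z : ℝ := K ^ (1 + 1 / (4 * m : ℝ)) with hz
  set Δ : ℝ := K ^ (2 - 1 / (2 * m : ℝ)) with hΔ
  set P' := P.filter fun p : ℕ => K ^ θ < (p : ℝ) with hP'
  set X := free a L P (K ^ θ) with hX
  set B := P'.filter fun p : ℕ => ¬ (p : ℝ) < z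
  by_contra hcon
  push Not at hcon
  have hz1 : 1 < z := one_lt_rpow hK1 (by positivity)
  have hcover : cnt X ∅ (below P' z) ≤ ∑ p ∈ B, mult a L p := by
    rw [← sum_dvd_eq]
    calc cnt X ∅ (below P' z)
        = ∑ x ∈ X.filter (fun x : ℤ => (∀ q ∈ (∅ : Finset ℕ), (q : ℤ) ∣ x)
            ∧ ∀ p ∈ below P' z, ¬(p : ℤ) ∣ x), (1 : ℝ) := by simp [cnt]
      _ ≤ ∑ x ∈ X.filter (fun x : ℤ => (∀ q ∈ (∅ : Finset ℕ), (q : ℤ) ∣ x)
            ∧ ∀ p ∈ below P' z, ¬(p : ℤ) ∣ x), ((B.filter fun p : ℕ => (p : ℤ) ∣ x).card : ℝ) := by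
          refine sum_le_sum fun x hx => ?_
          obtain ⟨hxX, -, hxT⟩ := mem_filter.1 hx
          obtain ⟨hxI, hx0⟩ := mem_filter.1 hxX
          obtain ⟨p, hpP, hpx⟩ := hcon x hxI
          have hp' : p ∈ P' := mem_filter.2
            ⟨hpP, lt_of_not_ge fun h => hx0 p (mem_filter.2 ⟨hpP, h⟩) hpx⟩
          have hpB : p ∈ B.filter fun p : ℕ => (p : ℤ) ∣ x := mem_filter.2
            ⟨mem_filter.2 ⟨hp', fun h => hxT p (mem_filter.2 ⟨hp', h⟩) hpx⟩, hpx⟩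
          exact_mod_cast card_pos.2 ⟨p, hpB⟩
      _ ≤ _ := sum_le_sum_of_subset_of_nonneg
          ((filter_subset _ _).trans (filter_subset _ _)) fun x _ _ => Nat.cast_nonneg _
  have hB : ∑ p ∈ B, mult a L p ≤ K * (L / z + 1) := by
    calc ∑ p ∈ B, mult a L p ≤ ∑ p ∈ B, ((L : ℝ) / z + 1) := by
          refine sum_le_sum fun p hp => ?_
          have hpz := not_lt.1 (mem_filter.1 hp).2
          refine ((mult_bounds a L (hP p (mem_filter.1 (mem_filter.1 hp).1).1).pos).2).trans ?_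
          gcongr
      _ = (B.card : ℝ) * (L / z + 1) := by rw [sum_const, nsmul_eq_mul]
      _ ≤ _ := by
          refine mul_le_mul_of_nonneg_right ?_ (by positivity)
          exact Nat.cast_le.2 (((card_le_card ((filter_subset _ _).trans (filter_subset _ _))).trans hcard))
  set u : ℝ := K ^ (1 / (8 * m : ℝ)) with hu
  have hu0 : 0 < u := rpow_pos_of_pos hK0 _
  have hLK : K ^ (2 - 1 / (4 * m : ℝ)) ≤ L := hL
  have hA : u * Δ / v * u ≤ L / v := by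
    have e1 : u * Δ * u = K ^ (2 - 1 / (4 * m : ℝ)) := by
      rw [hΔ, hu, ← rpow_add hK0, ← rpow_add hK0]; congr 1; field_simp; ring
    calc u * Δ / v * u = u * Δ * u / v := by ring
      _ ≤ L / v := by rw [e1]; exact div_le_div_of_nonneg_right hLK hv.le
  have hz' : K * u ≤ z := by
    rw [hz, hu, rpow_add hK0, rpow_one]
    exact mul_le_mul_of_nonneg_left (rpow_le_rpow_of_exponent_le hK1.le (by
      gcongr; linarith)) hK0.le
  have hBL : K * (L / z + 1) * u ≤ 2 * L := by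
    have h1 : K * u * ((L : ℝ) / z) ≤ L := by
      rw [← mul_div_assoc, div_le_iff₀ (by linarith)]
      linarith [mul_le_mul_of_nonneg_right hz' (Nat.cast_nonneg (α := ℝ) L)]
    have h2 : K * u ≤ L := hz'.trans (le_trans
      (rpow_le_rpow_of_exponent_le hK1.le (by
        have : (1 : ℝ) / (4 * m) ≤ 1 / 2 := by gcongr; linarith
        linarith)) hLK)
    linarith
  have hu16 : K ^ (1 / (16 * m : ℝ)) ≤ K ^ (-θ) * u := by
    rw [hu, ← rpow_add hK0]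
    refine rpow_le_rpow_of_exponent_le hK1.le ?_
    have : (1 : ℝ) / (8 * m) = 1 / (16 * m) + 1 / (16 * m) := by field_simp; ring
    linarith
  have h2 := mul_le_mul_of_nonneg_right (hs.trans (add_le_add (hcover.trans hB) le_rfl)) hu0.le
  have h4 : (L : ℝ) * (γ * K ^ (1 / (16 * m : ℝ))) ≤ L * (γ * (K ^ (-θ) * u)) :=
    mul_le_mul_of_nonneg_left (mul_le_mul_of_nonneg_left hu16 hγ.le) L.cast_nonneg
  rw [div_le_iff₀ hγ] at hkpow
  have h5 := mul_le_mul_of_nonneg_left hkpow (Nat.cast_nonneg (α := ℝ) L)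
  have hL0 : (0 : ℝ) < L := lt_of_lt_of_le (rpow_pos_of_pos hK0 _) hLK
  have e : (L : ℝ) / v = L * (1 / v) := by ring
  linarith

/-- The whole statement. -/
theorem deficient (δ η : ℝ) (hδ : 0 < δ) (hη : 0 < η) : ∃ c : ℝ, 0 < c ∧ ∃ C : ℝ, ∀ k n : ℕ,
    n ≠ 0 → n.primeFactors.card ≤ k →
    (1 + η) * δ ≤ ∏ p ∈ n.primeFactors.filter (fun p : ℕ => (k : ℝ) ^ δ ≤ (p : ℝ) ∧ p < k),
      (1 - 1 / (p : ℝ)) →
    ∀ (a : ℤ) (L : ℕ), C * ((k : ℝ) + 1) ^ (2 - c) ≤ L →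
      ∃ x ∈ Ico a (a + L), Int.gcd x n = 1 := by
  rcases lt_or_ge 1 δ with hδ1 | hδ1
  · refine ⟨1, one_pos, 0, fun k n _ _ hmid => absurd hmid (not_le.2 ?_)⟩
    refine (prod_le_one (fun p hp => ?_) fun p _ => ?_).trans_lt (by nlinarith)
    · have : (2 : ℝ) ≤ p := by
        exact_mod_cast (Nat.prime_of_mem_primeFactors (mem_filter.1 hp).1).two_le
      rw [sub_nonneg, div_le_one (by linarith)]; linarith
    · linarith [show (0 : ℝ) ≤ 1 / (p : ℝ) by positivity]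
  obtain ⟨c, hc, hc1, k₀, hbig⟩ := large_case δ η hδ hδ1 hη
  set Mn := k₀ + 1
  have hMn1 : 1 ≤ Mn := Nat.succ_pos _
  have hMn0 : (0 : ℝ) < Mn := by exact_mod_cast hMn1
  obtain ⟨R', hR'⟩ := pow_unbounded_of_one_lt (4 * (Mn : ℝ) ^ 5) (show (1 : ℝ) < 4 by norm_num)
  set R := R' + 1
  refine ⟨c, hc, max 1 (4 * Mn * (2 * (2 ^ R * ((k₀ : ℝ) + 1) ^ R)) + 1), ?_⟩
  intro k n hn hcard hmid a L hL
  set P := n.primeFactors
  have hPp : ∀ p ∈ P, p.Prime := fun p hp => Nat.prime_of_mem_primeFactors hp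
  suffices ∃ x ∈ Ico a (a + L), ∀ p ∈ P, ¬(p : ℤ) ∣ x by
    obtain ⟨x, hx, hno⟩ := this
    refine ⟨x, hx, ?_⟩
    by_contra hg
    obtain ⟨p, hp, hpd⟩ := Nat.exists_prime_and_dvd hg
    refine hno p (Nat.mem_primeFactors.2 ⟨hp, ?_, hn⟩) ?_
    · exact Int.natCast_dvd_natCast.1
        ((Int.natCast_dvd_natCast.2 hpd).trans (Int.gcd_dvd_right x n))
    · exact (Int.natCast_dvd_natCast.2 hpd).trans (Int.gcd_dvd_left x n)
  have hk1 : (1 : ℝ) ≤ ((k : ℝ) + 1) ^ (2 - c) :=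
    one_le_rpow (by linarith [Nat.cast_nonneg (α := ℝ) k]) (by linarith)
  rcases le_or_gt k₀ k with hk | hk
  · refine hbig k hk P hPp hcard ?_ a L ?_
    · simpa [V] using hmid
    refine le_trans ?_ hL
    calc (k : ℝ) ^ (2 - c) ≤ ((k : ℝ) + 1) ^ (2 - c) :=
          rpow_le_rpow k.cast_nonneg (by linarith) (by linarith)
      _ ≤ _ := le_mul_of_one_le_left (by linarith) (le_max_left _ _)
  · by_contra hcon
    push Not at hcon
    have hV : 1 / (Mn : ℝ) ≤ V P := le_trans (one_div_le_one_div_of_le (by positivity)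
      (by exact_mod_cast (by omega : P.card + 1 ≤ Mn))) (V_ge_card P hPp)
    have hb := (abs_le.1 (brun_rel a L P ∅ hPp (fun q hq => absurd hq (notMem_empty q))
      (disjoint_empty_left _) hV hMn1 (R := R) (Nat.succ_pos R'))).1
    have hzero : cnt ((Ico a (a + L)).filter fun x => ∀ p ∈ P, ¬(p : ℤ) ∣ x) ∅ ∅ = 0 := by
      rw [cnt, filter_eq_empty_iff.2 fun x hx => ?_]
      · simp
      · obtain ⟨hxI, hxP⟩ := mem_filter.1 hx
        obtain ⟨p, hp, hpx⟩ := hcon x hxI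
        exact absurd hpx (hxP p hp)
    rw [hzero, show dprod ∅ = 1 from prod_empty, div_one, div_one, zero_sub] at hb
    have he : 2 * (Mn : ℝ) ^ 5 / 4 ^ R ≤ 1 / 2 := by
      rw [div_le_iff₀ (by positivity)]
      have := hR'.le.trans (pow_le_pow_right₀ (show (1 : ℝ) ≤ 4 by norm_num) (show R' ≤ R by omega))
      linarith
    have hVp := V_pos hPp
    have h1 := mul_le_mul_of_nonneg_right he (show 0 ≤ (L : ℝ) * V P by positivity)
    have h2 : ((P.card : ℝ) + 1) ^ R ≤ ((k₀ : ℝ) + 1) ^ R :=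
      pow_le_pow_left₀ (by positivity) (by
        have : (P.card : ℝ) ≤ k₀ := by exact_mod_cast hcard.trans hk.le
        linarith) R
    have h3 : 2 * (2 ^ R * ((P.card : ℝ) + 1) ^ R) ≤ 2 * (2 ^ R * ((k₀ : ℝ) + 1) ^ R) := by gcongr
    have h4 : 1 ≤ V P * Mn := by rwa [div_le_iff₀ hMn0] at hV
    have h5 := mul_le_mul_of_nonneg_left h4 (Nat.cast_nonneg (α := ℝ) L)
    have h6 : (L : ℝ) * V P ≤ 2 * (2 * (2 ^ R * ((k₀ : ℝ) + 1) ^ R)) := by linarith
    have h7 := mul_le_mul_of_nonneg_right h6 hMn0.le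
    have h8 : max 1 (4 * (Mn : ℝ) * (2 * (2 ^ R * ((k₀ : ℝ) + 1) ^ R)) + 1) ≤ L :=
      le_trans (le_mul_of_one_le_right (le_trans zero_le_one (le_max_left _ _)) hk1) hL
    have h9 := le_trans (le_max_right (1 : ℝ) _) h8
    have : 0 ≤ (Mn : ℝ) * (2 * (2 ^ R * ((k₀ : ℝ) + 1) ^ R)) := by positivity
    linarith

/-- The integers with bounded `n / φ(n)` are a special case. -/
theorem bounded_ratio (M : ℝ) : ∃ c : ℝ, 0 < c ∧ ∃ C : ℝ, ∀ n : ℕ, n ≠ 0 →
    (n : ℝ) ≤ M * (Nat.totient n : ℝ) → ∀ (a : ℤ) (L : ℕ),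
      C * ((n.primeFactors.card : ℝ) + 1) ^ (2 - c) ≤ L → ∃ x ∈ Ico a (a + L), Int.gcd x n = 1 := by
  set M' := max M 1
  have hM' : 0 < M' := lt_of_lt_of_le one_pos (le_max_right _ _)
  obtain ⟨c, hc, C, h⟩ := deficient (1 / (2 * M')) 1 (by positivity) one_pos
  refine ⟨c, hc, C, fun n hn hM a L hL => h _ n hn le_rfl ?_ a L hL⟩
  have hPp : ∀ p ∈ n.primeFactors, p.Prime := fun p hp => Nat.prime_of_mem_primeFactors hp
  have htot : (Nat.totient n : ℝ) = n * V n.primeFactors := by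
    have h := congrArg (Rat.cast : ℚ → ℝ) (Nat.totient_eq_mul_prod_factors n)
    push_cast at h
    simpa [V, one_div] using h
  have hn0 : (0 : ℝ) < n := by exact_mod_cast Nat.pos_of_ne_zero hn
  have hV := V_pos hPp
  have h1 : 1 / M' ≤ V n.primeFactors := by
    rw [htot] at hM
    rw [div_le_iff₀ hM']
    by_contra hlt
    push Not at hlt
    have h2 : M * (n * V n.primeFactors) ≤ M' * (n * V n.primeFactors) :=
      mul_le_mul_of_nonneg_right (le_max_left _ _) (by positivity)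
    have h3 := mul_lt_mul_of_pos_left hlt hn0
    linarith
  refine le_trans (le_of_eq ?_) (h1.trans (V_anti hPp (filter_subset _ _)))
  ring

end Vale.Agent.P013.Top
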