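import Vale.Agent.P013.Top.Main

/-! Vaughan's exponent `1 + ε` when the large primes have reciprocal sum below `1`. -/

namespace Vale.Agent.P013.Top

open Real Finset Filter Jac

theorem sparse_top (ε η : ℝ) (hε : 0 < ε) (hη : 0 < η) : ∃ θ : ℝ, 0 < θ ∧ ∃ C : ℝ, ∀ k n : ℕ,
    n ≠ 0 → n.primeFactors.card ≤ k →
    ∑ p ∈ n.primeFactors.filter (fun p : ℕ => (k : ℝ) ^ θ < (p : ℝ)), 1 / (p : ℝ) ≤ 1 - η →
    ∀ (a : ℤ) (L : ℕ), C * ((k : ℝ) + 1) ^ (1 + ε) ≤ L →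
      ∃ x ∈ Ico a (a + L), Int.gcd x n = 1 := by
  obtain ⟨G, c, hG, hfund⟩ := fundamental
  obtain ⟨R', hR'⟩ := pow_unbounded_of_one_lt (4 * G / η) (show (1 : ℝ) < 4 by norm_num)
  set R := R' + 1
  set h : ℕ := 4 * R + 4 * c + 2
  set θ : ℝ := ε / ((h : ℝ) + 1) with hθ
  refine ⟨θ, by positivity, 4 / η, fun k n hn hcard hsum a L hL => ?_⟩
  set K : ℝ := (k : ℝ) + 1
  have hK1 : 1 ≤ K := by linarith [Nat.cast_nonneg (α := ℝ) k]
  have hK0 : 0 < K := by linarith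
  have hθ0 : 0 ≤ θ := by positivity
  set z : ℝ := K ^ θ
  have hz1 : 1 ≤ z := one_le_rpow hK1 hθ0
  set P := n.primeFactors
  have hPp : ∀ p ∈ P, p.Prime := fun p hp => Nat.prime_of_mem_primeFactors hp
  suffices ∃ x ∈ Ico a (a + L), ∀ p ∈ P, ¬(p : ℤ) ∣ x by
    obtain ⟨x, hx, hno⟩ := this
    refine ⟨x, hx, ?_⟩
    by_contra hg
    obtain ⟨p, hp, hpd⟩ := Nat.exists_prime_and_dvd hg
    refine hno p (Nat.mem_primeFactors.2 ⟨hp, ?_, hn⟩) ?_
    · exact Int.natCast_dvd_natCast.1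
        ((Int.natCast_dvd_natCast.2 hpd).trans (Int.gcd_dvd_right x n))
    · exact (Int.natCast_dvd_natCast.2 hpd).trans (Int.gcd_dvd_left x n)
  set B := P.filter fun p : ℕ => z < (p : ℝ)
  set X := free a L P z
  set P₀ := P.filter fun p : ℕ => (p : ℝ) ≤ z
  set X₀ : ℝ := L * V P₀
  set δ₀ : ℝ := G / 4 ^ R with hδ
  have hδη : δ₀ ≤ η / 4 := by
    rw [hδ, div_le_iff₀ (by positivity)]
    have h4 := hR'.le.trans (pow_le_pow_right₀ (show (1 : ℝ) ≤ 4 by norm_num) (show R' ≤ R by omega))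
    rw [div_le_iff₀ hη] at h4
    linarith
  have hδ0 : 0 ≤ δ₀ := by positivity
  have hV0 : 1 / z ≤ V P₀ :=
    V_ge_inv hz1 P₀ fun p hp => ⟨hPp p (mem_filter.1 hp).1, (mem_filter.1 hp).2⟩
  have hX0 : 0 ≤ X₀ := mul_nonneg L.cast_nonneg (le_trans (by positivity) hV0)
  by_contra hcon
  push Not at hcon
  have hlow : X₀ * (1 - δ₀) - z ^ h ≤ cnt X ∅ ∅ := by
    have h1 := (abs_le.1 (hfund P hPp a L z hz1 R (Nat.succ_pos R') ∅ fun q hq =>
      absurd hq (notMem_empty q))).1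
    rw [show dprod ∅ = 1 from prod_empty, div_one, div_one] at h1
    linarith
  have hup : ∀ p ∈ B, cnt X {p} ∅ ≤ X₀ * (1 / (p : ℝ)) * (1 + δ₀) + z ^ h := by
    intro p hp
    obtain ⟨hpP, hpz⟩ := mem_filter.1 hp
    have h1 := (abs_le.1 (hfund P hPp a L z hz1 R (Nat.succ_pos R') {p} fun q hq => by
      rw [mem_singleton.1 hq]; exact ⟨hPp p hpP, hpz⟩)).2
    rw [show dprod {p} = (p : ℝ) from prod_singleton _ _] at h1
    have e1 : δ₀ * X₀ / (p : ℝ) = δ₀ * (X₀ * (1 / (p : ℝ))) := by ring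
    have e2 : X₀ / (p : ℝ) = X₀ * (1 / (p : ℝ)) := by ring
    rw [e1, e2] at h1
    linarith
  have hcover : cnt X ∅ ∅ ≤ ∑ p ∈ B, cnt X {p} ∅ := by
    simp only [cnt, notMem_empty, IsEmpty.forall_iff, implies_true, and_self, filter_true,
      mem_singleton, forall_eq, and_true, card_filter, Nat.cast_sum]
    rw [sum_comm, card_eq_sum_ones, Nat.cast_sum]
    refine sum_le_sum fun x hx => ?_
    obtain ⟨hxI, hx0⟩ := mem_filter.1 hx
    obtain ⟨p, hpP, hpx⟩ := hcon x hxI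
    have hpB : p ∈ B := mem_filter.2
      ⟨hpP, lt_of_not_ge fun h => hx0 p (mem_filter.2 ⟨hpP, h⟩) hpx⟩
    refine le_trans ?_ (single_le_sum (fun q _ => Nat.cast_nonneg _) hpB)
    simp [hpx]
  have hs : ∑ p ∈ B, 1 / (p : ℝ) ≤ 1 - η := by
    refine le_trans (sum_le_sum_of_subset_of_nonneg (fun p hp => ?_) fun p _ _ => by positivity) hsum
    obtain ⟨hpP, hpz⟩ := mem_filter.1 hp
    exact mem_filter.2 ⟨hpP, lt_of_le_of_lt (rpow_le_rpow k.cast_nonneg (by linarith) hθ0) hpz⟩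
  have hB : (B.card : ℝ) ≤ k := by exact_mod_cast (card_le_card (filter_subset _ _)).trans hcard
  have htot := hcover.trans (sum_le_sum hup)
  rw [sum_add_distrib, sum_const, nsmul_eq_mul, ← sum_mul, ← mul_sum] at htot
  have h2 : X₀ * (∑ p ∈ B, 1 / (p : ℝ)) * (1 + δ₀) ≤ X₀ * (1 - η) * (1 + δ₀) := by gcongr
  have h3 : (B.card : ℝ) * z ^ h ≤ (k : ℝ) * z ^ h := mul_le_mul_of_nonneg_right hB (by positivity)
  have h4 : 2 * δ₀ ≤ η / 2 := by linarith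
  have h5 := mul_le_mul_of_nonneg_left h4 hX0
  have h6 : 0 ≤ X₀ * (η * δ₀) := by positivity
  have h7 : X₀ * (η / 2) ≤ K * z ^ h := by
    show X₀ * (η / 2) ≤ ((k : ℝ) + 1) * z ^ h
    linarith
  have h8 : (L : ℝ) * (η / 2) ≤ K * z ^ (h + 1) := by
    have h9 : (L : ℝ) * (1 / z) ≤ X₀ := mul_le_mul_of_nonneg_left hV0 L.cast_nonneg
    have h10 := mul_le_mul_of_nonneg_right h9 (show 0 ≤ η / 2 * z by positivity)
    have h11 := mul_le_mul_of_nonneg_right h7 (show 0 ≤ z by positivity)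
    have e : (L : ℝ) * (1 / z) * (η / 2 * z) = L * (η / 2) := by field_simp
    rw [pow_succ]
    linarith
  have hpow : K * z ^ (h + 1) = K ^ (1 + ε) := by
    rw [← rpow_natCast z, ← rpow_mul hK0.le, rpow_add hK0, rpow_one, hθ]
    congr 2
    push_cast
    field_simp
  have hKe : 0 < K ^ (1 + ε) := rpow_pos_of_pos hK0 _
  rw [div_mul_eq_mul_div, div_le_iff₀ hη] at hL
  linarith

end Vale.Agent.P013.Top
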